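import Vale.Agent.P017.H509.A8

/-!
Equidistribution of the classes of the factors.
-/

namespace Vale.Agent.P017.H509

open Finset Function
open Vale.Agent.P017.H260 (tupS symb meanC)
open Vale.Agent.P014.H687.FM (sqf mem_sqf fm2b mf mf_nonneg)

/-- all squarefree numbers prime to `30` up to `X` -/
def allF (X : ℕ) : Finset ℕ := (sqf X).filter (fun n => n.Coprime 30)

lemma mem_allF {X n : ℕ} : n ∈ allF X ↔ n ≤ X ∧ Squarefree n ∧ n.Coprime 30 := by
  unfold allF
  rw [mem_filter, mem_sqf]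
  constructor
  · rintro ⟨⟨⟨_, h1⟩, h2⟩, h3⟩
    exact ⟨h1, h2, h3⟩
  · rintro ⟨h1, h2, h3⟩
    exact ⟨⟨⟨Nat.pos_of_ne_zero h2.ne_zero, h1⟩, h2⟩, h3⟩

lemma mem_Fam {c : G} {X n : ℕ} : n ∈ Fam c X ↔ n ≤ X ∧ Squarefree n ∧ n.Coprime 30 ∧ cl n = c := by
  classical
  unfold Fam
  simp only [Finset.mem_filter, Finset.mem_range, IsFam]
  constructor
  · rintro ⟨h1, h2⟩
    exact ⟨by omega, h2⟩
  · rintro ⟨h1, h2⟩
    exact ⟨by omega, h2⟩

lemma Fam_eq (c : G) (X : ℕ) : Fam c X = (allF X).filter (fun n => cl n = c) := by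
  ext n
  rw [mem_Fam, mem_filter, mem_allF]
  tauto

lemma chR_prod (b : G) (s : Finset ℕ) : chR b (∏ p ∈ s, p) = ∏ p ∈ s, chR b p := by
  classical
  induction s using Finset.induction_on with
  | empty => simp [chR_one]
  | insert a s ha ih => rw [Finset.prod_insert ha, Finset.prod_insert ha, chR_mul, ih]

lemma chR_sqf (b : G) {n : ℕ} (hn : Squarefree n) :
    ∏ p ∈ n.primeFactors, chR b p = chR b n := by
  rw [← chR_prod, Nat.prod_primeFactors_of_squarefree hn]

/-- the sums of the powers -/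
lemma sm_pow {N : ℕ} (hN : 2 ≤ N) :
    Sm (fun X => ∑ n ∈ sqf X, (1 - (1 : ℝ) / N) ^ n.primeFactors.card) := by
  have hN' : (2 : ℝ) ≤ N := by exact_mod_cast hN
  have hNi : (1 : ℝ) / N ≤ 1 := by rw [div_le_one (by linarith)]; linarith
  obtain ⟨C, hC, h⟩ := fm2b (1 - 1 / N) (by linarith)
  refine Sm.of_rate (C := C) (δ := 1 / N) (X₁ := 3) (by positivity) ?_
  intro X hX
  have h1 := h X hX
  rw [Nat.floor_natCast] at h1
  have e1 : (1 - (1 : ℝ) / N) - 1 = -(1 / N) := by ring
  rw [e1] at h1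
  rw [abs_of_nonneg (Finset.sum_nonneg fun n _ => pow_nonneg (by linarith) _)]
  exact h1

section general

variable {ι : Type*} [Fintype ι] [DecidableEq ι]

/-- the twisted sum -/
noncomputable def BT (T : Finset ι) (β : ι → G) (X : ℕ) : ℝ :=
  ∑ n ∈ allF X, (1 / (T.card : ℝ)) ^ n.primeFactors.card *
    ∑ D ∈ tupS T n, chi β (fun u => cl (D u))

/-- the twisted sum as an Euler product -/
noncomputable def BE (T : Finset ι) (β : ι → G) (X : ℕ) : ℝ :=
  ∑ n ∈ allF X, ∏ p ∈ n.primeFactors, (1 / (T.card : ℝ) * ∑ u ∈ T, chR (β u) p)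

lemma chi_hT (T : Finset ι) (β : ι → G) {n : ℕ} (hn : n.Coprime 30) {D : ι → ℕ}
    (hD : D ∈ tupS T n) :
    chi β (fun u => cl (D u)) = ∏ u, hT T (fun u => chR (β u)) u (D u) := by
  unfold tupS at hD
  rw [Finset.mem_filter] at hD
  obtain ⟨_, h1, h2⟩ := hD
  unfold chi
  refine Finset.prod_congr rfl fun u _ => ?_
  unfold hT
  by_cases hu : u ∈ T
  · rw [if_pos hu]
    dsimp only
    rw [chR_cop]
    exact Nat.Coprime.coprime_dvd_left (h1 ▸ Finset.dvd_prod_of_mem _ (Finset.mem_univ u)) hn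
  · have h3 : D u = 1 := by
      by_contra hc
      exact hu ((h2 u).1 hc)
    rw [if_neg hu, if_pos h3]
    dsimp only
    rw [h3, cl_one, dotG_zero_right, sg_zero]

lemma BT_BE (T : Finset ι) (β : ι → G) (hT2 : 2 ≤ T.card) (X : ℕ) :
    |BT T β X - BE T β X| ≤
      T.card * ∑ n ∈ sqf X, (1 - (1 : ℝ) / T.card) ^ n.primeFactors.card := by
  have hN' : (2 : ℝ) ≤ T.card := by exact_mod_cast hT2
  unfold BT BE
  rw [← Finset.sum_sub_distrib]
  refine (Finset.abs_sum_le_sum_abs _ _).trans ?_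
  have hle : ∀ n ∈ allF X, |(1 / (T.card : ℝ)) ^ n.primeFactors.card *
      ∑ D ∈ tupS T n, chi β (fun u => cl (D u)) -
        ∏ p ∈ n.primeFactors, (1 / (T.card : ℝ) * ∑ u ∈ T, chR (β u) p)| ≤
      T.card * (1 - (1 : ℝ) / T.card) ^ n.primeFactors.card := by
    intro n hn
    rw [mem_allF] at hn
    have h1 : ∏ p ∈ n.primeFactors, (1 / (T.card : ℝ) * ∑ u ∈ T, chR (β u) p) =
        (1 / (T.card : ℝ)) ^ n.primeFactors.card *
          ∑ D ∈ tup ι n, ∏ u, hT T (fun u => chR (β u)) u (D u) := by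
      rw [hT_sum T _ (fun u => chR_one _) (fun u a b => chR_mul _ a b) n hn.2.1,
        Finset.prod_mul_distrib, Finset.prod_const]
    rw [h1, Finset.sum_congr rfl (fun D hD => chi_hT T β hn.2.2 hD), ← mul_sub, abs_mul,
      abs_of_nonneg (by positivity), abs_sub_comm]
    have h2 := tup_diff T (fun u => chR (β u)) (fun u x => chR_abs _ x) n hn.2.1
    have h3 : (1 - (1 : ℝ) / T.card) = 1 / T.card * ((T.card - 1 : ℕ) : ℝ) := by
      rw [Nat.cast_sub (by omega)]
      push_cast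
      field_simp
    calc (1 / (T.card : ℝ)) ^ n.primeFactors.card *
        |∑ D ∈ tup ι n, ∏ u, hT T (fun u => chR (β u)) u (D u) -
          ∑ D ∈ tupS T n, ∏ u, hT T (fun u => chR (β u)) u (D u)| ≤
        (1 / (T.card : ℝ)) ^ n.primeFactors.card *
          (T.card * ((T.card - 1 : ℕ) : ℝ) ^ n.primeFactors.card) := by gcongr
      _ = _ := by rw [h3, mul_pow]; ring
  refine (Finset.sum_le_sum hle).trans ?_
  rw [← Finset.mul_sum]
  apply mul_le_mul_of_nonneg_left _ (by positivity)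
  apply Finset.sum_le_sum_of_subset_of_nonneg
  · exact Finset.filter_subset _ _
  · intro n _ _
    apply pow_nonneg
    have : (1 : ℝ) / T.card ≤ 1 := by rw [div_le_one (by linarith)]; linarith
    linarith

lemma BT_sub (T : Finset ι) (β : ι → G) (hT2 : 2 ≤ T.card) :
    Sm (fun X => BT T β X - BE T β X) := by
  refine Sm.mono ((sm_pow hT2).const_mul T.card) ⟨0, fun X _ => ?_⟩
  exact (BT_BE T β hT2 X).trans (le_abs_self _)

/-- two opposite values -/
lemma two_opp (T : Finset ι) (x : ι → ℝ) (hx : ∀ u ∈ T, |x u| ≤ 1) {u v : ι} (hu : u ∈ T)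
    (hv : v ∈ T) (huv : u ≠ v) (h : x u + x v = 0) : |∑ w ∈ T, x w| ≤ T.card - 2 := by
  have hvu : v ∈ T.erase u := Finset.mem_erase.2 ⟨huv.symm, hv⟩
  rw [← Finset.add_sum_erase T x hu, ← Finset.add_sum_erase (T.erase u) x hvu, ← add_assoc, h,
    zero_add]
  refine (Finset.abs_sum_le_sum_abs _ _).trans ?_
  calc ∑ w ∈ (T.erase u).erase v, |x w| ≤ ∑ _w ∈ (T.erase u).erase v, (1 : ℝ) := by
        refine Finset.sum_le_sum fun w hw => hx w ?_
        exact Finset.mem_of_mem_erase (Finset.mem_of_mem_erase hw)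
    _ = T.card - 2 := by
        rw [Finset.sum_const, nsmul_eq_mul, mul_one, Finset.card_erase_of_mem hvu,
          Finset.card_erase_of_mem hu]
        have : 1 ≤ (T.erase u).card := Finset.card_pos.2 ⟨v, hvu⟩
        rw [Finset.card_erase_of_mem hu] at this
        rw [Nat.cast_sub this, Nat.cast_sub (by omega)]
        push_cast
        ring

/-- nonconstant characters -/
lemma BE_nonconst (T : Finset ι) (β : ι → G) (hT2 : 2 ≤ T.card) {u v : ι} (hu : u ∈ T)
    (hv : v ∈ T) (huv : β u ≠ β v) : Sm (fun X => BE T β X) := by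
  have hN' : (2 : ℝ) ≤ T.card := by exact_mod_cast hT2
  have hne : β u + β v ≠ 0 := fun h => huv (add_eq_zero_G.1 h)
  have huv' : u ≠ v := fun h => huv (by rw [h])
  obtain ⟨C, hC, h⟩ := fm2d (npchar_chR hne) (chR_val (β u + β v)) hT2
  set g : ℕ → ℝ := fun p => |1 / (T.card : ℝ) * ∑ w ∈ T, chR (β w) p| with hg
  have hg1 : ∀ p, g p ≤ 1 := by
    intro p
    rw [hg]
    dsimp only
    rw [abs_mul, abs_of_nonneg (by positivity)]
    have : |∑ w ∈ T, chR (β w) p| ≤ T.card := by
      refine (Finset.abs_sum_le_sum_abs _ _).trans ?_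
      calc ∑ w ∈ T, |chR (β w) p| ≤ ∑ _w ∈ T, (1 : ℝ) :=
            Finset.sum_le_sum fun w _ => chR_abs _ _
        _ = T.card := by simp
    calc 1 / (T.card : ℝ) * |∑ w ∈ T, chR (β w) p| ≤ 1 / (T.card : ℝ) * T.card := by gcongr
      _ = 1 := by field_simp
  have hg2 : ∀ p, chR (β u + β v) p = -1 → g p ≤ 1 - 2 / T.card := by
    intro p hp
    rw [chR_add] at hp
    have h1 : chR (β u) p + chR (β v) p = 0 := by
      rcases chR_val (β u) p with h1 | h1 | h1
      · rw [h1] at hp ⊢; linarith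
      · rw [h1] at hp ⊢; linarith
      · rw [h1.1] at hp; norm_num at hp
    have h2 := two_opp T (fun w => chR (β w) p) (fun w _ => chR_abs _ _) hu hv huv' h1
    rw [hg]
    dsimp only
    rw [abs_mul, abs_of_nonneg (by positivity)]
    calc 1 / (T.card : ℝ) * |∑ w ∈ T, chR (β w) p| ≤ 1 / (T.card : ℝ) * (T.card - 2) := by
          gcongr
      _ = 1 - 2 / T.card := by field_simp
  refine Sm.of_rate (C := C) (δ := 1 / T.card) (X₁ := 3) (by positivity) ?_
  intro X hX
  have h1 := h X hX g (fun p => abs_nonneg _) (fun p _ => hg1 p) (fun p _ hp => hg2 p hp)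
  rw [Nat.floor_natCast] at h1
  refine le_trans ?_ h1
  unfold BE
  refine (Finset.abs_sum_le_sum_abs _ _).trans ?_
  calc ∑ n ∈ allF X, |∏ p ∈ n.primeFactors, (1 / (T.card : ℝ) * ∑ u ∈ T, chR (β u) p)|
      = ∑ n ∈ allF X, mf g n := by
        refine Finset.sum_congr rfl fun n _ => ?_
        rw [Finset.abs_prod]
        rfl
    _ ≤ ∑ n ∈ sqf X, mf g n := by
        apply Finset.sum_le_sum_of_subset_of_nonneg
        · exact Finset.filter_subset _ _
        · intro n _ _
          exact mf_nonneg (fun p => abs_nonneg _) n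

/-- constant characters -/
lemma BE_const (T : Finset ι) (β : ι → G) (hT2 : 2 ≤ T.card) (b : G) (hb : ∀ u ∈ T, β u = b)
    (X : ℕ) : BE T β X = ∑ n ∈ allF X, chR b n := by
  unfold BE
  refine Finset.sum_congr rfl fun n hn => ?_
  rw [mem_allF] at hn
  rw [← chR_sqf b hn.2.1]
  refine Finset.prod_congr rfl fun p _ => ?_
  rw [Finset.sum_congr rfl (fun u hu => by rw [hb u hu]), Finset.sum_const, nsmul_eq_mul]
  have : (T.card : ℝ) ≠ 0 := by
    have : 0 < T.card := by omega
    positivity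
  field_simp

/-- Fourier expansion -/
lemma fourier (T : Finset ι) (h : ι → G) (hh : ∀ u, u ∉ T → h u = 0) (c : G)
    (hc : ∑ u, h u = c) (X : ℕ) [DecidableEq (ι → G)] :
    ∑ m ∈ Fam c X, (1 / (T.card : ℝ)) ^ m.primeFactors.card *
      ∑ D ∈ tupS T m, (if (fun u => cl (D u)) = h then (1 : ℝ) else 0) =
      ∑ β ∈ Fintype.piFinset (tset T), ((16 ^ T.card)⁻¹ * chi β h) * BT T β X := by
  unfold BT
  simp only [Finset.mul_sum]
  rw [Finset.sum_comm]
  rw [Fam_eq, Finset.sum_filter]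
  refine Finset.sum_congr rfl fun n hn => ?_
  rw [mem_allF] at hn
  rw [Finset.sum_comm]
  have hcl : ∀ D ∈ tupS T n, ∑ u, cl (D u) = cl n ∧ ∀ u, u ∉ T → cl (D u) = 0 := by
    intro D hD
    unfold tupS at hD
    rw [Finset.mem_filter] at hD
    obtain ⟨_, h1, h2⟩ := hD
    constructor
    · rw [← h1, cl_prod]
      intro u _
      exact Nat.Coprime.coprime_dvd_left (h1 ▸ Finset.dvd_prod_of_mem _ (Finset.mem_univ u))
        hn.2.2
    · intro u hu
      have h3 : D u = 1 := by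
        by_contra hc
        exact hu ((h2 u).1 hc)
      rw [h3, cl_one]
  have hinner : ∀ D ∈ tupS T n, ∑ β ∈ Fintype.piFinset (tset T),
      (16 ^ T.card)⁻¹ * chi β h * ((1 / (T.card : ℝ)) ^ n.primeFactors.card *
        chi β (fun u => cl (D u))) =
      (1 / (T.card : ℝ)) ^ n.primeFactors.card *
        (if (fun u => cl (D u)) = h then (1 : ℝ) else 0) := by
    intro D hD
    have h1 := ind_chi T h (fun u => cl (D u)) hh (hcl D hD).2
    have h2 : (if (fun u => cl (D u)) = h then (1 : ℝ) else 0) =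
        (16 ^ T.card)⁻¹ * ∑ β ∈ Fintype.piFinset (tset T), chi β h * chi β (fun u => cl (D u)) := by
      rw [← h1]
      congr
    rw [h2, Finset.mul_sum, Finset.mul_sum]
    refine Finset.sum_congr rfl fun β _ => ?_
    ring
  rw [Finset.sum_congr rfl hinner]
  by_cases hcn : cl n = c
  · rw [if_pos hcn]
  · rw [if_neg hcn]
    symm
    apply Finset.sum_eq_zero
    intro D hD
    rw [if_neg, mul_zero]
    rintro rfl
    exact hcn ((hcl D hD).1.symm.trans hc)

/-- the constant characters -/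
def cst (T : Finset ι) (b : G) (u : ι) : G := if u ∈ T then b else 0

lemma cst_inj (T : Finset ι) (hT : T.Nonempty) : Function.Injective (cst T) := by
  obtain ⟨u0, hu0⟩ := hT
  intro b b' hbb
  have := congrFun hbb u0
  unfold cst at this
  simpa [hu0] using this

lemma cst_mem (T : Finset ι) (b : G) : cst T b ∈ Fintype.piFinset (tset T) := by
  rw [Fintype.mem_piFinset]
  intro u
  unfold tset cst
  split_ifs <;> simp

lemma dotG_sum (b : G) (h : ι → G) (s : Finset ι) :
    ∑ u ∈ s, dotG b (h u) = dotG b (∑ u ∈ s, h u) := by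
  induction s using Finset.induction_on with
  | empty => simp [dotG_zero_right]
  | insert a s ha ih => rw [Finset.sum_insert ha, Finset.sum_insert ha, ih, dotG_add_right]

lemma chi_cst (T : Finset ι) (h : ι → G) (hh : ∀ u, u ∉ T → h u = 0) (b : G) :
    chi (cst T b) h = sg (dotG b (∑ u, h u)) := by
  unfold chi
  rw [← sg_sum, ← dotG_sum]
  congr 1
  refine Finset.sum_congr rfl fun u _ => ?_
  unfold cst
  by_cases hu : u ∈ T
  · rw [if_pos hu]
  · rw [if_neg hu, hh u hu, dotG_zero_right, dotG_zero_right]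

lemma const_part (T : Finset ι) (hT2 : 2 ≤ T.card) (h : ι → G) (hh : ∀ u, u ∉ T → h u = 0) (c : G)
    (hc : ∑ u, h u = c) (X : ℕ) :
    ∑ b : G, ((16 ^ T.card)⁻¹ * chi (cst T b) h) * BE T (cst T b) X =
      (Fam c X).card / 16 ^ (T.card - 1) := by
  have h8 : ∀ b, chi (cst T b) h = sg (dotG b c) := by
    intro b
    rw [chi_cst T h hh b, hc]
  have h9 : ∀ b, BE T (cst T b) X = ∑ n ∈ allF X, chR b n := by
    intro b
    refine BE_const T (cst T b) hT2 b ?_ X
    intro u hu
    unfold cst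
    rw [if_pos hu]
  simp only [h8, h9, Finset.mul_sum]
  rw [Finset.sum_comm]
  have h10 : ∀ n ∈ allF X, ∑ b : G, (16 ^ T.card : ℝ)⁻¹ * sg (dotG b c) * chR b n =
      if cl n = c then (16 ^ (T.card - 1) : ℝ)⁻¹ else 0 := by
    intro n hn
    rw [mem_allF] at hn
    have h11 : ∀ b : G, (16 ^ T.card : ℝ)⁻¹ * sg (dotG b c) * chR b n =
        (16 ^ T.card : ℝ)⁻¹ * sg (dotG b (c + cl n)) := by
      intro b
      rw [chR_cop hn.2.2, dotG_add_right, sg_add]
      ring
    rw [Finset.sum_congr rfl (fun b _ => h11 b), ← Finset.mul_sum, orth]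
    have h12 : (c + cl n = 0) ↔ cl n = c := by
      rw [add_eq_zero_G]
      exact eq_comm
    have h13 : (16 : ℝ) ^ T.card = 16 ^ (T.card - 1) * 16 := by
      rw [← pow_succ]
      congr 1
      omega
    by_cases hcn : cl n = c
    · rw [if_pos (h12.2 hcn), if_pos hcn, h13, mul_inv, mul_assoc,
        inv_mul_cancel₀ (by norm_num : (16 : ℝ) ≠ 0), mul_one]
    · rw [if_neg (fun h => hcn (h12.1 h)), if_neg hcn, mul_zero]
  rw [Finset.sum_congr rfl h10, ← Finset.sum_filter, ← Fam_eq, Finset.sum_const, nsmul_eq_mul,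
    div_eq_mul_inv]

/-- nonconstant characters contribute little -/
lemma BT_nonconst (T : Finset ι) (hT2 : 2 ≤ T.card) (β : ι → G)
    (hβ1 : β ∈ Fintype.piFinset (tset T)) (hβ2 : ∀ b, cst T b ≠ β) : Sm (fun X => BT T β X) := by
  obtain ⟨u0, hu0⟩ : T.Nonempty := Finset.card_pos.1 (by omega)
  rw [Fintype.mem_piFinset] at hβ1
  have hex : ∃ v ∈ T, β u0 ≠ β v := by
    by_contra hcon
    push Not at hcon
    apply hβ2 (β u0)
    funext u
    unfold cst
    by_cases hu : u ∈ T
    · rw [if_pos hu, hcon u hu]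
    · rw [if_neg hu]
      have := hβ1 u
      unfold tset at this
      rw [if_neg hu, Finset.mem_singleton] at this
      exact this.symm
  obtain ⟨v, hv, hne⟩ := hex
  have h3 := (BT_sub T β hT2).add (BE_nonconst T β hT2 hu0 hv hne)
  simpa using h3

/-- one tuple of classes -/
lemma one_tuple (T : Finset ι) (hT2 : 2 ≤ T.card) (h : ι → G) (hh : ∀ u, u ∉ T → h u = 0) (c : G)
    (hc : ∑ u, h u = c) [DecidableEq (ι → G)] :
    Sm (fun X => ∑ m ∈ Fam c X, (1 / (T.card : ℝ)) ^ m.primeFactors.card *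
      ∑ D ∈ tupS T m, (if (fun u => cl (D u)) = h then (1 : ℝ) else 0) -
        (Fam c X).card / 16 ^ (T.card - 1)) := by
  have hTne : T.Nonempty := Finset.card_pos.1 (by omega)
  have hsub : univ.image (cst T) ⊆ Fintype.piFinset (tset T) := by
    intro β hβ
    rw [Finset.mem_image] at hβ
    obtain ⟨b, _, rfl⟩ := hβ
    exact cst_mem T b
  have h3 : Sm (fun X => ∑ β ∈ Fintype.piFinset (tset T) \ univ.image (cst T),
      ((16 ^ T.card)⁻¹ * chi β h) * BT T β X) := by
    refine Sm.sum _ fun β hβ => ?_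
    rw [Finset.mem_sdiff] at hβ
    refine (BT_nonconst T hT2 β hβ.1 fun b hb => hβ.2 ?_).const_mul _
    rw [Finset.mem_image]
    exact ⟨b, mem_univ _, hb⟩
  have h4 : Sm (fun X => ∑ b : G, ((16 ^ T.card)⁻¹ * chi (cst T b) h) *
      (BT T (cst T b) X - BE T (cst T b) X)) :=
    Sm.sum _ fun b _ => (BT_sub T (cst T b) hT2).const_mul _
  have h5 := h3.add h4
  refine Sm.mono h5 ⟨0, fun X _ => le_of_eq ?_⟩
  congr 1
  rw [fourier T h hh c hc, ← Finset.sum_sdiff hsub]
  have h6 : ∑ β ∈ univ.image (cst T), ((16 ^ T.card)⁻¹ * chi β h) * BT T β X =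
      ∑ b : G, ((16 ^ T.card)⁻¹ * chi (cst T b) h) * BT T (cst T b) X :=
    Finset.sum_image (fun a _ b _ hab => cst_inj T hTne hab)
  rw [h6, ← const_part T hT2 h hh c hc X]
  have h8 : ∑ b : G, ((16 ^ T.card)⁻¹ * chi (cst T b) h) * (BT T (cst T b) X - BE T (cst T b) X) =
      ∑ b : G, ((16 ^ T.card)⁻¹ * chi (cst T b) h) * BT T (cst T b) X -
        ∑ b : G, ((16 ^ T.card)⁻¹ * chi (cst T b) h) * BE T (cst T b) X := by
    rw [← Finset.sum_sub_distrib]
    exact Finset.sum_congr rfl fun b _ => by ring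
  rw [h8]
  ring

/-- **second part of the analytic input** -/
theorem T1b (N : ℕ) (hN2 : 2 ≤ N) (T : Finset ι) (hT : T.card = N) (F : (ι → G) → ℝ) (c : G)
    (ε : ℝ) (hε : 0 < ε) :
    ∃ X₀ : ℕ, ∀ X ≥ X₀, |∑ m ∈ Fam c X, ((1 / (N : ℝ)) ^ m.primeFactors.card *
      ∑ D ∈ tupS T m, F (fun u => cl (D u)) - meanC T c F)| ≤ ε * X := by
  classical
  have hT2 : 2 ≤ T.card := by omega
  set S0 : Finset (ι → G) := univ.filter (fun h => (∀ u, u ∉ T → h u = 0) ∧ ∑ u, h u = c)
    with hS0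
  have h1 : Sm (fun X => ∑ h ∈ S0, F h * (∑ m ∈ Fam c X, (1 / (T.card : ℝ)) ^ m.primeFactors.card *
      ∑ D ∈ tupS T m, (if (fun u => cl (D u)) = h then (1 : ℝ) else 0) -
        (Fam c X).card / 16 ^ (T.card - 1))) := by
    refine Sm.sum _ fun h hh => ?_
    rw [hS0, Finset.mem_filter] at hh
    exact (one_tuple T hT2 h hh.2.1 c hh.2.2).const_mul _
  have h2 : ∀ X, ∑ m ∈ Fam c X, ((1 / (N : ℝ)) ^ m.primeFactors.card *
      ∑ D ∈ tupS T m, F (fun u => cl (D u)) - meanC T c F) =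
      ∑ h ∈ S0, F h * (∑ m ∈ Fam c X, (1 / (T.card : ℝ)) ^ m.primeFactors.card *
      ∑ D ∈ tupS T m, (if (fun u => cl (D u)) = h then (1 : ℝ) else 0) -
        (Fam c X).card / 16 ^ (T.card - 1)) := by
    intro X
    have h2a : ∑ h ∈ S0, F h * (∑ m ∈ Fam c X, (1 / (T.card : ℝ)) ^ m.primeFactors.card *
      ∑ D ∈ tupS T m, (if (fun u => cl (D u)) = h then (1 : ℝ) else 0) -
        (Fam c X).card / 16 ^ (T.card - 1)) =
        ∑ h ∈ S0, (∑ m ∈ Fam c X, F h * ((1 / (T.card : ℝ)) ^ m.primeFactors.card *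
      ∑ D ∈ tupS T m, (if (fun u => cl (D u)) = h then (1 : ℝ) else 0))) -
        ∑ h ∈ S0, F h * ((Fam c X).card / 16 ^ (T.card - 1)) := by
      rw [← Finset.sum_sub_distrib]
      refine Finset.sum_congr rfl fun h _ => ?_
      rw [mul_sub, Finset.mul_sum]
    rw [h2a, Finset.sum_sub_distrib]
    congr 1
    · rw [Finset.sum_comm]
      refine Finset.sum_congr rfl fun m hm => ?_
      rw [mem_Fam] at hm
      rw [hT]
      have h3 : ∀ h ∈ S0, F h * ((1 / (N : ℝ)) ^ m.primeFactors.card *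
          ∑ D ∈ tupS T m, (if (fun u => cl (D u)) = h then (1 : ℝ) else 0)) =
          (1 / (N : ℝ)) ^ m.primeFactors.card *
            ∑ D ∈ tupS T m, (if (fun u => cl (D u)) = h then F h else 0) := by
        intro h _
        rw [mul_left_comm, Finset.mul_sum]
        congr 1
        refine Finset.sum_congr rfl fun D _ => ?_
        split_ifs <;> simp
      rw [Finset.sum_congr rfl h3, ← Finset.mul_sum]
      congr 1
      rw [Finset.sum_comm]
      refine Finset.sum_congr rfl fun D hD => ?_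
      unfold tupS at hD
      rw [Finset.mem_filter] at hD
      obtain ⟨_, h4, h5⟩ := hD
      rw [Finset.sum_eq_single (fun u => cl (D u))]
      · rw [if_pos rfl]
      · intro h _ hne
        rw [if_neg (fun h' => hne h'.symm)]
      · intro hni
        exfalso
        apply hni
        rw [hS0, Finset.mem_filter]
        refine ⟨mem_univ _, ?_, ?_⟩
        · intro u hu
          have h6 : D u = 1 := by
            by_contra hc
            exact hu ((h5 u).1 hc)
          show cl (D u) = 0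
          rw [h6, cl_one]
        · rw [← hm.2.2.2, ← h4, cl_prod]
          intro u _
          exact Nat.Coprime.coprime_dvd_left
            (h4 ▸ Finset.dvd_prod_of_mem _ (Finset.mem_univ u)) hm.2.2.1
    · rw [Finset.sum_const, nsmul_eq_mul]
      unfold meanC
      rw [← Finset.sum_mul]
      ring
  obtain ⟨X₀, h3⟩ := h1 ε hε
  refine ⟨X₀, fun X hX => ?_⟩
  rw [h2]
  exact h3 X hX

end general

end Vale.Agent.P017.H509
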