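import Vale.Agent.P017.H509.A9

/-!
From the moments to the density of the minimal Selmer groups
-/

namespace Vale.Agent.P017.H509

open Finset Module

/-- the statement on the moments -/
def Moment (e : S) (c : G) (k : ℕ) : Prop := ∀ ε : ℝ, 0 < ε → ∃ X₀ : ℕ, ∀ X ≥ X₀,
  |∑ m ∈ Fam c X, ((∏ i ∈ range k, ((Nat.card (V e m) : ℝ) / 2 - 2 ^ i)) - 1)| ≤ ε * X

theorem good_self : ∀ e : S, ∀ c : G, Good e c → inL e c e c := by decide +kernel

theorem mem_V (e : S) (m : ℕ) (v : S × (m.primeFactors → ZMod 2)) :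
    v ∈ V e m ↔ (∀ p, hp e m p v = 0) ∧ inL e (cl m) (locl m v).1 (locl m v).2 := by
  unfold V
  rw [Submodule.mem_inf, Submodule.mem_iInf]
  simp only [LinearMap.mem_ker, Submodule.mem_comap]
  rfl

theorem cl_primeFactors {m : ℕ} (hm : Squarefree m) (hc : m.Coprime 30) :
    ∑ p : m.primeFactors, cl (p : ℕ) = cl m := by
  have h1 : ∏ p : m.primeFactors, (p : ℕ) = m := by
    rw [Finset.prod_coe_sort m.primeFactors (fun p => p)]
    exact Nat.prod_primeFactors_of_squarefree hm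
  conv_rhs => rw [← h1]
  rw [cl_prod]
  intro p _
  exact Nat.Coprime.coprime_dvd_left (Nat.dvd_of_mem_primeFactors p.2) hc

/-- the class of `d` -/
theorem d_mem_V {e : S} {m : ℕ} (hm : Squarefree m) (hc : m.Coprime 30) (h : Good e (cl m)) :
    (e, fun _ => (1 : ZMod 2)) ∈ V e m := by
  rw [mem_V]
  constructor
  · intro p
    show pr e (cl p) + (∑ q, if q = p then 0 else 1 * lg q p) +
      1 * (pr e (cl p) + ∑ q : m.primeFactors, if q = p then 0 else lg q p) = 0
    simp only [one_mul]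
    have h2 : ∀ a : ZMod 2, a + a = 0 := by decide
    exact h2 _
  · have h1 : locl m (e, fun _ => (1 : ZMod 2)) = (e, cl m) := by
      show (e, ∑ p : m.primeFactors, (1 : ZMod 2) • cl p) = (e, cl m)
      simp only [one_smul]
      rw [cl_primeFactors hm hc]
    rw [h1]
    exact good_self e (cl m) h

instance (e : S) (m : ℕ) : Finite (V e m) := inferInstance

theorem card_V_pow (e : S) (m : ℕ) : ∃ n : ℕ, Nat.card (V e m) = 2 ^ n := by
  refine ⟨finrank (ZMod 2) (V e m), ?_⟩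
  have h : Nat.card (V e m) = Nat.card (ZMod 2) ^ finrank (ZMod 2) (V e m) :=
    Module.natCard_eq_pow_finrank
  rwa [Nat.card_zmod] at h

theorem card_V_ne_one {e : S} {m : ℕ} (hm : Squarefree m) (hc : m.Coprime 30)
    (h : Good e (cl m)) : Nat.card (V e m) ≠ 1 := by
  intro h1
  rw [Nat.card_eq_one_iff_unique] at h1
  obtain ⟨hs, _⟩ := h1
  have key : ∀ v ∈ V e m, v = 0 := by
    intro v hv
    have := hs.elim ⟨v, hv⟩ 0
    exact congrArg Subtype.val this
  have h2 := key _ (d_mem_V hm hc h)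
  rw [Prod.mk_eq_zero] at h2
  obtain ⟨he, hp1⟩ := h2
  have hemp : m.primeFactors = ∅ := by
    rw [Finset.eq_empty_iff_forall_notMem]
    intro p hp
    have : (1 : ZMod 2) = 0 := congrFun hp1 ⟨p, hp⟩
    exact absurd this (by decide)
  have hm1 : m = 1 := by
    rw [Nat.primeFactors_eq_empty] at hemp
    rcases hemp with h0 | h0
    · exact absurd h0 hm.ne_zero
    · exact h0
  subst he hm1
  have h3 := key ((1, 0, 1), 0) (by
    rw [mem_V]
    constructor
    · intro p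
      exact absurd p.2 (by simp)
    · have h4 : locl 1 (((1, 0, 1), 0) : S × ((1 : ℕ).primeFactors → ZMod 2)) = ((1, 0, 1), 0) := by
        show (((1, 0, 1) : S), ∑ p : (1 : ℕ).primeFactors, (0 : ZMod 2) • cl p) = ((1, 0, 1), 0)
        simp
      rw [h4, cl_one]
      decide)
  rw [Prod.mk_eq_zero] at h3
  exact absurd h3.1 (by decide)

/-- the proportion -/
noncomputable def rho : ℝ := 188 / 651

/-- the polynomial -/
noncomputable def PP (x : ℝ) : ℝ :=
  (2 - x) / 1 * ((4 - x) / 3) * ((8 - x) / 7) * ((16 - x) / 15) * ((32 - x) / 31)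

theorem PP_eq (x : ℝ) : PP x = rho + ((∏ i ∈ range 0, (x - 2 ^ i)) - 1)
    - ((∏ i ∈ range 1, (x - 2 ^ i)) - 1) + 1 / 3 * ((∏ i ∈ range 2, (x - 2 ^ i)) - 1)
    - 1 / 21 * ((∏ i ∈ range 3, (x - 2 ^ i)) - 1) + 1 / 315 * ((∏ i ∈ range 4, (x - 2 ^ i)) - 1)
    - 1 / 9765 * ((∏ i ∈ range 5, (x - 2 ^ i)) - 1) := by
  unfold PP rho
  simp only [Finset.prod_range_succ, Finset.prod_range_zero]
  ring

theorem PP_le (r : ℕ) : PP (2 ^ r) ≤ if r = 0 then 1 else 0 := by
  rcases Nat.lt_or_ge r 6 with h | h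
  · interval_cases r <;> norm_num [PP]
  · rw [if_neg (by omega)]
    have h1 : (64 : ℝ) ≤ 2 ^ r := by
      calc (64 : ℝ) = 2 ^ 6 := by norm_num
        _ ≤ 2 ^ r := pow_le_pow_right₀ (by norm_num) h
    unfold PP
    obtain ⟨x, hx⟩ : ∃ x : ℝ, x = 2 ^ r := ⟨_, rfl⟩
    rw [← hx] at h1 ⊢
    have e1 : (2 - x) / 1 * ((4 - x) / 3) * ((8 - x) / 7) * ((16 - x) / 15) * ((32 - x) / 31) =
        -(((x - 2) * (x - 4) * (x - 8) * (x - 16) * (x - 32)) / 9765) := by ring
    rw [e1]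
    have a1 : 0 ≤ x - 2 := by linarith
    have a2 : 0 ≤ x - 4 := by linarith
    have a3 : 0 ≤ x - 8 := by linarith
    have a4 : 0 ≤ x - 16 := by linarith
    have a5 : 0 ≤ x - 32 := by linarith
    have : 0 ≤ ((x - 2) * (x - 4) * (x - 8) * (x - 16) * (x - 32)) / 9765 := by positivity
    linarith

open Classical in
/-- **the density of the minimal Selmer groups** -/
theorem dens_min {e : S} {c : G} (h : Good e c) (hmom : ∀ k ≤ 5, Moment e c k) (ε : ℝ)
    (hε : 0 < ε) : ∃ X₀ : ℕ, ∀ X ≥ X₀, rho * (Fam c X).card - ε * X ≤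
      (((Fam c X).filter (fun m => Nat.card (V e m) = 2)).card : ℝ) := by
  have hsm : ∀ k ≤ 5, Sm (fun X => ∑ m ∈ Fam c X,
      ((∏ i ∈ range k, ((Nat.card (V e m) : ℝ) / 2 - 2 ^ i)) - 1)) := by
    intro k hk ε hε
    obtain ⟨X₀, h1⟩ := hmom k hk ε hε
    exact ⟨X₀, fun X hX => h1 X hX⟩
  have hS : Sm (fun X => (∑ m ∈ Fam c X, PP ((Nat.card (V e m) : ℝ) / 2)) -
      rho * (Fam c X).card) := by
    have h1 := ((((((hsm 0 (by norm_num)).sub (hsm 1 (by norm_num))).add
      ((hsm 2 (by norm_num)).const_mul (1 / 3))).sub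
      ((hsm 3 (by norm_num)).const_mul (1 / 21))).add
      ((hsm 4 (by norm_num)).const_mul (1 / 315))).sub
      ((hsm 5 (by norm_num)).const_mul (1 / 9765)))
    refine Sm.mono h1 ⟨0, fun X _ => le_of_eq ?_⟩
    congr 1
    simp only [PP_eq, Finset.sum_add_distrib, Finset.sum_sub_distrib, ← Finset.mul_sum,
      Finset.sum_const, nsmul_eq_mul]
    ring
  obtain ⟨X₀, h1⟩ := hS ε hε
  refine ⟨X₀, fun X hX => ?_⟩
  have h2 := (abs_le.1 (h1 X hX)).1
  have h3 : ∑ m ∈ Fam c X, PP ((Nat.card (V e m) : ℝ) / 2) ≤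
      (((Fam c X).filter (fun m => Nat.card (V e m) = 2)).card : ℝ) := by
    rw [Finset.card_filter]
    push_cast
    refine Finset.sum_le_sum fun m hm => ?_
    rw [mem_Fam] at hm
    obtain ⟨n, hn⟩ := card_V_pow e m
    have hn0 : n ≠ 0 := by
      rintro rfl
      exact card_V_ne_one hm.2.1 hm.2.2.1 (by rw [hm.2.2.2]; exact h) hn
    obtain ⟨r, rfl⟩ := Nat.exists_eq_succ_of_ne_zero hn0
    have h4 : ((Nat.card (V e m) : ℕ) : ℝ) / 2 = 2 ^ r := by
      rw [hn, pow_succ]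
      push_cast
      ring
    rw [h4]
    refine (PP_le r).trans ?_
    by_cases hr : r = 0
    · rw [if_pos hr, if_pos (by rw [hn, hr]; norm_num)]
    · rw [if_neg hr]
      split_ifs <;> norm_num
  linarith

end Vale.Agent.P017.H509
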