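import Mathlib

/-!
# Selmer type groups of the quadratic twists of `X₀(15)`: definitions

`D = -d`, `d = val e * m` with `m` squarefree and prime to `30`, `val e` a divisor of `30`.
`K = ℚ(√-d)`.  The curve `y² = x (x - 16 d) (x - 25 d)` is the twist of `X₀(15)` by `-d`.
-/

namespace Vale.Agent.P017.H509

/-- exponents of `2, 3, 5` -/
abbrev S := ZMod 2 × ZMod 2 × ZMod 2

/-- classes modulo `8`, `3`, `5`: `(ε, ω, τ, κ)` -/
abbrev G := ZMod 2 × ZMod 2 × ZMod 2 × ZMod 2

/-- the divisor of `30` -/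
def val (s : S) : ℕ :=
  (if s.1 = 1 then 2 else 1) * (if s.2.1 = 1 then 3 else 1) * (if s.2.2 = 1 then 5 else 1)

/-- the class of a number prime to `30` -/
def cl (m : ℕ) : G :=
  (if m % 4 = 3 then 1 else 0, if m % 8 = 3 ∨ m % 8 = 5 then 1 else 0,
    if m % 3 = 2 then 1 else 0, if m % 5 = 2 ∨ m % 5 = 3 then 1 else 0)

/-- the exponent of the symbol `(val s / p)` in terms of the class of `p` -/
def pr (s : S) (g : G) : ZMod 2 := s.1 * g.2.1 + s.2.1 * (g.2.2.1 + g.1) + s.2.2 * g.2.2.2

/-- the exponent of the Jacobi symbol -/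
def lg (a p : ℕ) : ZMod 2 := if jacobiSym a p = -1 then 1 else 0

section locals

/-! `e, c`: exponents and class of `d = val e * m`, so that `D = - d`; `s, g`: the same for the
positive number `v`. -/

variable (e : S) (c : G) (s : S) (g : G)

/-- the unit part of `D` is `3` modulo `4` -/
def εD : ZMod 2 := 1 + e.2.1 + c.1
/-- the unit part of `D` at `2` is `3` or `5` modulo `8` -/
def ωD : ZMod 2 := e.2.1 + e.2.2 + c.2.1
/-- the unit part of `D` at `3` is a nonresidue -/
def τD : ZMod 2 := 1 + e.1 + e.2.2 + c.2.2.1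
/-- the unit part of `D` at `5` is a nonresidue -/
def κD : ZMod 2 := e.1 + e.2.1 + c.2.2.2

/-- unit part of `v` at `2` modulo `4` -/
def εv : ZMod 2 := s.2.1 + g.1
def ωv : ZMod 2 := s.2.1 + s.2.2 + g.2.1
def τv : ZMod 2 := s.1 + s.2.2 + g.2.2.1
def κv : ZMod 2 := s.1 + s.2.1 + g.2.2.2

/-- Hilbert symbol `(v, D)_2` -/
def h2 : ZMod 2 := εv s g * εD e c + s.1 * ωD e c + e.1 * ωv s g
/-- Hilbert symbol `(v, D)_3` -/
def h3 : ZMod 2 := s.2.1 * τD e c + e.2.1 * τv s g + s.2.1 * e.2.1
/-- Hilbert symbol `(v, D)_5` -/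
def h5 : ZMod 2 := s.2.2 * κD e c + e.2.2 * κv s g

/-- the local conditions at `2, 3, 5` for `v` -/
def inL : Prop :=
  (if e.1 = 0 ∧ εD e c = 0 then s.1 = 0 else h2 e c s g = 0) ∧
  (if e.2.1 = 1 then h3 e c s g = 0 else if τD e c = 0 then s.2.1 = 0
    else s.2.1 = 0 ∧ τv s g = 0) ∧
  (if e.2.2 = 1 then h5 e c s g = 0 else if κD e c = 1 then s.2.2 = 0 else True)

instance : Decidable (inL e c s g) := by unfold inL; infer_instance

/-- the classes with root number `+1`: `(3, 5)` is split-inert, inert-split, ramified-inert,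
split-ramified or ramified-ramified -/
def Good : Prop :=
  (e.2.1 = 0 ∧ e.2.2 = 0 ∧ τD e c = 0 ∧ κD e c = 1) ∨
  (e.2.1 = 0 ∧ e.2.2 = 0 ∧ τD e c = 1 ∧ κD e c = 0) ∨
  (e.2.1 = 1 ∧ e.2.2 = 0 ∧ κD e c = 1) ∨
  (e.2.1 = 0 ∧ e.2.2 = 1 ∧ τD e c = 0) ∨
  (e.2.1 = 1 ∧ e.2.2 = 1)

instance : Decidable (Good e c) := by unfold Good; infer_instance

end locals

theorem inL_zero (e : S) (c : G) : inL e c 0 0 := by revert e c; decide

theorem h2_add (e : S) (c : G) (s s' : S) (g g' : G) :
    h2 e c (s + s') (g + g') = h2 e c s g + h2 e c s' g' := by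
  simp only [h2, εv, ωv, Prod.fst_add, Prod.snd_add]; ring

theorem h3_add (e : S) (c : G) (s s' : S) (g g' : G) :
    h3 e c (s + s') (g + g') = h3 e c s g + h3 e c s' g' := by
  simp only [h3, τv, Prod.fst_add, Prod.snd_add]; ring

theorem h5_add (e : S) (c : G) (s s' : S) (g g' : G) :
    h5 e c (s + s') (g + g') = h5 e c s g + h5 e c s' g' := by
  simp only [h5, κv, Prod.fst_add, Prod.snd_add]; ring

theorem τv_add (s s' : S) (g g' : G) : τv (s + s') (g + g') = τv s g + τv s' g' := by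
  simp only [τv, Prod.fst_add, Prod.snd_add]; ring

theorem inL_add (e : S) (c : G) (s s' : S) (g g' : G) (h : inL e c s g) (h' : inL e c s' g') :
    inL e c (s + s') (g + g') := by
  unfold inL at *
  rw [h2_add, h3_add, h5_add, τv_add]
  obtain ⟨a1, a2, a3⟩ := h
  obtain ⟨b1, b2, b3⟩ := h'
  refine ⟨?_, ?_, ?_⟩
  · clear a2 a3 b2 b3
    split_ifs at * with hc
    · rw [Prod.fst_add, a1, b1]; rfl
    · rw [a1, b1]; rfl
  · clear a1 a3 b1 b3
    split_ifs at * with hc hc'
    · rw [a2, b2]; rfl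
    · rw [Prod.snd_add, Prod.fst_add, a2, b2]; rfl
    · refine ⟨?_, ?_⟩
      · rw [Prod.snd_add, Prod.fst_add, a2.1, b2.1]; rfl
      · rw [a2.2, b2.2]; rfl
  · clear a1 a2 b1 b2
    split_ifs at * with hc hc'
    · rw [a3, b3]; rfl
    · rw [Prod.snd_add, Prod.snd_add, a3, b3]; rfl

/-- the local conditions as a subspace -/
def Lsub (e : S) (c : G) : Submodule (ZMod 2) (S × G) where
  carrier := {v | inL e c v.1 v.2}
  zero_mem' := inL_zero e c
  add_mem' := fun {a b} h h' => inL_add e c a.1 b.1 a.2 b.2 h h'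
  smul_mem' := by
    intro z v h
    have : z = 0 ∨ z = 1 := by revert z; decide
    rcases this with rfl | rfl
    · simpa using inL_zero e c
    · simpa using h

/-- the symbol `(v, D)_p` for `v = val v.1 * ∏ q^{v.2 q}` -/
def hp (e : S) (m : ℕ) (p : m.primeFactors) :
    (S × (m.primeFactors → ZMod 2)) →ₗ[ZMod 2] ZMod 2 where
  toFun v := pr v.1 (cl p) + (∑ q, if q = p then 0 else v.2 q * lg q p) +
    v.2 p * (pr e (cl p) + ∑ q : m.primeFactors, if q = p then 0 else lg q p)
  map_add' := by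
    intro v w
    have h1 : (∑ q, if q = p then 0 else (v + w).2 q * lg q p) =
        (∑ q, if q = p then 0 else v.2 q * lg q p) + ∑ q, if q = p then 0 else w.2 q * lg q p := by
      rw [← Finset.sum_add_distrib]
      refine Finset.sum_congr rfl fun q _ => ?_
      split_ifs
      · simp
      · simp only [Prod.snd_add, Pi.add_apply]; ring
    rw [h1]
    simp only [pr, Prod.fst_add, Prod.snd_add, Pi.add_apply]
    ring
  map_smul' := by
    intro z v
    have : z = 0 ∨ z = 1 := by revert z; decide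
    rcases this with rfl | rfl
    · simp [pr]
    · simp

/-- the class in `S × G` of `v` -/
def locl (m : ℕ) : (S × (m.primeFactors → ZMod 2)) →ₗ[ZMod 2] (S × G) where
  toFun v := (v.1, ∑ p, v.2 p • cl p)
  map_add' := by
    intro v w
    simp only [Prod.fst_add, Prod.snd_add, Pi.add_apply, add_smul, Finset.sum_add_distrib,
      Prod.mk_add_mk]
  map_smul' := by
    intro z v
    simp only [Prod.smul_fst, Prod.smul_snd, Pi.smul_apply, smul_assoc, ← Finset.smul_sum,
      RingHom.id_apply, Prod.smul_mk]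

/-- the Selmer type group `V`: the positive `v` which are locally in the image at all primes -/
def V (e : S) (m : ℕ) : Submodule (ZMod 2) (S × (m.primeFactors → ZMod 2)) :=
  (⨅ p, LinearMap.ker (hp e m p)) ⊓ (Lsub e (cl m)).comap (locl m)

/-- squarefree numbers prime to `30` in the class `c` -/
def IsFam (c : G) (m : ℕ) : Prop := Squarefree m ∧ m.Coprime 30 ∧ cl m = c

open Classical in
/-- the family up to `X` -/
noncomputable def Fam (c : G) (X : ℕ) : Finset ℕ := (Finset.range (X + 1)).filter (IsFam c)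

end Vale.Agent.P017.H509
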