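import Vale.Agent.P017.H509.Defs
import Vale.Agent.P014.H580.J3
import Vale.Agent.P014.H687.NPC

/-!
# Real characters modulo `120`
-/

namespace Vale.Agent.P017.H509

open Finset

export Vale.Agent.P014.H580 (J)

/-- the sign -/
noncomputable def sg (a : ZMod 2) : ℝ := if a = 1 then -1 else 1

lemma sg_zero : sg 0 = 1 := by unfold sg; rw [if_neg (by decide)]

lemma sg_one : sg 1 = -1 := by unfold sg; rw [if_pos rfl]

lemma z01 (a : ZMod 2) : a = 0 ∨ a = 1 := by revert a; decide

lemma sg_add (a b : ZMod 2) : sg (a + b) = sg a * sg b := by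
  have h11 : (1 : ZMod 2) + 1 = 0 := by decide
  rcases z01 a with rfl | rfl <;> rcases z01 b with rfl | rfl
  · rw [add_zero, sg_zero]; norm_num
  · rw [zero_add, sg_zero]; norm_num
  · rw [add_zero, sg_zero]; norm_num
  · rw [h11, sg_zero, sg_one]; norm_num

lemma sg_cases (a : ZMod 2) : sg a = 1 ∨ sg a = -1 := by
  unfold sg; split_ifs <;> simp

lemma sg_abs (a : ZMod 2) : |sg a| = 1 := by
  rcases sg_cases a with h | h <;> rw [h] <;> simp

lemma sg_sq (a : ZMod 2) : sg a * sg a = 1 := by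
  rcases sg_cases a with h | h <;> rw [h] <;> norm_num

lemma sg_sum {α : Type*} (s : Finset α) (f : α → ZMod 2) :
    sg (∑ i ∈ s, f i) = ∏ i ∈ s, sg (f i) := by
  classical
  induction s using Finset.induction_on with
  | empty => simp [sg_zero]
  | insert a s ha ih => rw [Finset.sum_insert ha, Finset.prod_insert ha, sg_add, ih]

/-- the pairing on `G` -/
def dotG (b g : G) : ZMod 2 :=
  b.1 * g.1 + b.2.1 * g.2.1 + b.2.2.1 * g.2.2.1 + b.2.2.2 * g.2.2.2

lemma dotG_add_left (a b g : G) : dotG (a + b) g = dotG a g + dotG b g := by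
  simp only [dotG, Prod.fst_add, Prod.snd_add]; ring

lemma dotG_add_right (b g h : G) : dotG b (g + h) = dotG b g + dotG b h := by
  simp only [dotG, Prod.fst_add, Prod.snd_add]; ring

lemma dotG_zero_left (g : G) : dotG 0 g = 0 := by simp [dotG]

lemma dotG_zero_right (g : G) : dotG g 0 = 0 := by simp [dotG]

lemma cl_mod (n : ℕ) : cl (n % 120) = cl n := by
  unfold cl
  have h4 : n % 120 % 4 = n % 4 := by omega
  have h8 : n % 120 % 8 = n % 8 := by omega
  have h3 : n % 120 % 3 = n % 3 := by omega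
  have h5 : n % 120 % 5 = n % 5 := by omega
  rw [h4, h8, h3, h5]

lemma cl_mul_aux : ∀ a : Fin 120, a.val.Coprime 30 → ∀ b : Fin 120, b.val.Coprime 30 →
    cl (a.val * b.val % 120) = cl a.val + cl b.val := by
  decide +kernel

lemma cop30 {n : ℕ} : n.Coprime 30 ↔ n % 2 = 1 ∧ ¬ 3 ∣ n ∧ ¬ 5 ∣ n := by
  rw [Nat.coprime_comm, show (30 : ℕ) = 2 * 3 * 5 by norm_num, Nat.coprime_mul_iff_left,
    Nat.coprime_mul_iff_left, Nat.prime_two.coprime_iff_not_dvd,
    Nat.prime_three.coprime_iff_not_dvd, Nat.prime_five.coprime_iff_not_dvd, and_assoc]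
  have : ¬ 2 ∣ n ↔ n % 2 = 1 := by omega
  rw [this]

lemma coprime_mod (n : ℕ) : (n % 120).Coprime 30 ↔ n.Coprime 30 := by
  rw [cop30, cop30]
  omega

lemma cl_mul {m n : ℕ} (hm : m.Coprime 30) (hn : n.Coprime 30) : cl (m * n) = cl m + cl n := by
  have h := cl_mul_aux ⟨m % 120, Nat.mod_lt _ (by norm_num)⟩ ((coprime_mod m).2 hm)
    ⟨n % 120, Nat.mod_lt _ (by norm_num)⟩ ((coprime_mod n).2 hn)
  simp only at h
  rw [cl_mod m, cl_mod n, ← Nat.mul_mod, cl_mod] at h
  exact h

lemma cl_one : cl 1 = 0 := by decide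

lemma cl_prod {α : Type*} (s : Finset α) (f : α → ℕ) (h : ∀ i ∈ s, (f i).Coprime 30) :
    cl (∏ i ∈ s, f i) = ∑ i ∈ s, cl (f i) := by
  classical
  induction s using Finset.induction_on with
  | empty => simp [cl_one]
  | insert a s ha ih =>
    rw [Finset.prod_insert ha, Finset.sum_insert ha, cl_mul (h a (mem_insert_self _ _)),
      ih (fun i hi => h i (mem_insert_of_mem hi))]
    exact Nat.Coprime.prod_left (fun i hi => h i (mem_insert_of_mem hi))

/-- the real characters modulo `120` -/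
noncomputable def chR (b : G) (n : ℕ) : ℝ := if n.Coprime 30 then sg (dotG b (cl n)) else 0

lemma chR_cop {b : G} {n : ℕ} (h : n.Coprime 30) : chR b n = sg (dotG b (cl n)) := if_pos h

lemma chR_ncop {b : G} {n : ℕ} (h : ¬ n.Coprime 30) : chR b n = 0 := if_neg h

lemma chR_mul (b : G) (m n : ℕ) : chR b (m * n) = chR b m * chR b n := by
  by_cases hm : m.Coprime 30
  · by_cases hn : n.Coprime 30
    · rw [chR_cop hm, chR_cop hn, chR_cop (Nat.Coprime.mul_left hm hn), cl_mul hm hn, dotG_add_right,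
        sg_add]
    · rw [chR_ncop hn, chR_ncop, mul_zero]
      exact fun h => hn (Nat.Coprime.coprime_mul_left h)
  · rw [chR_ncop hm, chR_ncop, zero_mul]
    exact fun h => hm (Nat.Coprime.coprime_mul_right h)

lemma chR_add (b b' : G) (n : ℕ) : chR (b + b') n = chR b n * chR b' n := by
  by_cases hn : n.Coprime 30
  · rw [chR_cop hn, chR_cop hn, chR_cop hn, dotG_add_left, sg_add]
  · rw [chR_ncop hn, chR_ncop hn, zero_mul]

lemma chR_one (b : G) : chR b 1 = 1 := by
  rw [chR_cop (by norm_num), cl_one, dotG_zero_right, sg_zero]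

lemma chR_zero {n : ℕ} (h : n.Coprime 30) : chR 0 n = 1 := by
  rw [chR_cop h, dotG_zero_left, sg_zero]

lemma chR_abs (b : G) (n : ℕ) : |chR b n| ≤ 1 := by
  unfold chR
  split_ifs
  · rw [sg_abs]
  · simp

lemma chR_per (b : G) (n k : ℕ) : chR b (n + 120 * k) = chR b n := by
  have h1 : (n + 120 * k) % 120 = n % 120 := by omega
  have h2 : (n + 120 * k).Coprime 30 ↔ n.Coprime 30 := by
    rw [← coprime_mod, h1, coprime_mod]
  unfold chR
  rw [← cl_mod (n + 120 * k), h1, cl_mod]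
  simp only [h2]

lemma chR_val (b : G) (n : ℕ) : chR b n = 1 ∨ chR b n = -1 ∨ (chR b n = 0 ∧ ¬ n.Coprime 120) := by
  by_cases hn : n.Coprime 30
  · rw [chR_cop hn]
    rcases sg_cases (dotG b (cl n)) with h | h
    · exact Or.inl h
    · exact Or.inr (Or.inl h)
  · refine Or.inr (Or.inr ⟨chR_ncop hn, fun h => hn ?_⟩)
    rw [show (120 : ℕ) = 30 * 4 by norm_num] at h
    exact Nat.Coprime.coprime_mul_right_right h

lemma cop120 {n : ℕ} : n.Coprime 120 ↔ n.Coprime 30 := by
  constructor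
  · intro h
    rw [show (120 : ℕ) = 30 * 4 by norm_num] at h
    exact Nat.Coprime.coprime_mul_right_right h
  · intro h
    rw [show (120 : ℕ) = 30 * 4 by norm_num]
    refine Nat.Coprime.mul_right h ?_
    have : n.Coprime 2 := by
      rw [Nat.coprime_two_right, Nat.odd_iff]
      exact (cop30.1 h).1
    exact Nat.Coprime.pow_right 2 this

lemma cl_19 : cl 31 = (1, 0, 0, 0) := by decide
lemma cl_11 : cl 61 = (0, 1, 0, 0) := by decide
lemma cl_41 : cl 41 = (0, 0, 1, 0) := by decide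
lemma cl_73 : cl 97 = (0, 0, 0, 1) := by decide

lemma exists_dot {b : G} (hb : b ≠ 0) : ∃ n : ℕ, n.Coprime 30 ∧ dotG b (cl n) = 1 := by
  have h : ∀ b : G, b ≠ 0 → dotG b (cl 31) = 1 ∨ dotG b (cl 61) = 1 ∨ dotG b (cl 41) = 1 ∨
      dotG b (cl 97) = 1 := by decide
  rcases h b hb with h | h | h | h
  · exact ⟨31, by norm_num, h⟩
  · exact ⟨61, by norm_num, h⟩
  · exact ⟨41, by norm_num, h⟩
  · exact ⟨97, by norm_num, h⟩

open Vale.Agent.P014.H687.FM in
lemma npchar_chR {b : G} (hb : b ≠ 0) : NPChar 120 (fun n => (chR b n : ℂ)) := by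
  obtain ⟨n, hn, h1⟩ := exists_dot hb
  refine NPChar.of_ne_one (b := n) (by norm_num) ?_ ?_ ?_ ?_ ?_ (cop120.2 hn)
  · intro m k
    rw [chR_mul]; push_cast; ring
  · intro m
    have := chR_per b m 1
    rw [mul_one] at this
    rw [this]
  · intro m hm
    rw [chR_ncop (fun h => hm (cop120.2 h))]; simp
  · intro m
    rw [Complex.norm_real, Real.norm_eq_abs]
    exact chR_abs b m
  · rw [chR_cop hn, h1, sg_one]
    norm_num

lemma J_one_right (x : ℕ) : J x 1 = 1 := by
  unfold Vale.Agent.P014.H580.J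
  simp

lemma J_eq_zero {d e : ℕ} (he : e ≠ 0) (h : ¬ Nat.Coprime d e) : J d e = 0 := by
  unfold Vale.Agent.P014.H580.J
  have : NeZero e := ⟨he⟩
  rw [(jacobiSym.eq_zero_iff_not_coprime).2 (by rwa [Int.gcd_natCast_natCast])]
  simp

lemma J_sq {x m : ℕ} (h : Nat.Coprime x m) : J x m * J x m = 1 := by
  unfold Vale.Agent.P014.H580.J
  have := jacobiSym.sq_one (a := (x : ℤ)) (b := m) (by rwa [Int.gcd_natCast_natCast])
  rw [← Int.cast_mul, ← sq, this]
  simp

lemma x4_eq {m : ℕ} (hm : m.Coprime 30) : Vale.Agent.P014.H580.x4 m = sg (cl m).1 := by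
  have h2 := (cop30.1 hm).1
  unfold Vale.Agent.P014.H580.x4 cl sg
  have h : m % 4 = 1 ∨ m % 4 = 3 := by omega
  rcases h with h | h
  · have : Even (m / 2) := by rw [Nat.even_iff]; omega
    rw [this.neg_one_pow]
    simp [h]
  · have : Odd (m / 2) := by rw [Nat.odd_iff]; omega
    rw [this.neg_one_pow]
    simp [h]

/-- reciprocity -/
lemma J_recip {m x : ℕ} (hm : m.Coprime 30) (hx : x.Coprime 30) :
    J m x = sg ((cl m).1 * (cl x).1) * J x m := by
  have hm' : Odd m := Nat.odd_iff.2 (cop30.1 hm).1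
  have hx' : Odd x := Nat.odd_iff.2 (cop30.1 hx).1
  rw [Vale.Agent.P014.H580.recip hm' hx', x4_eq hm, x4_eq hx]
  rcases z01 (cl m).1 with h | h <;> rcases z01 (cl x).1 with h' | h' <;> rw [h, h'] <;>
    norm_num [sg_zero, sg_one]

end Vale.Agent.P017.H509
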