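import Vale.Agent.P017.H509.A3
import Vale.Agent.P014.H580.K6

/-!
The summand as a function of one coordinate is a real character.
-/

namespace Vale.Agent.P017.H509

open Finset Function
open Vale.Agent.P014.FM (TX mem_TX prod_upd one_le_prod sqh sqh_nonneg lprod lprod_dvd)
open Vale.Agent.P014.H580 (J_mul_right J_abs)

/-- functions which are characters on numbers prime to `30` and to `r` -/
def Ty (r : ℕ) (F : ℕ → ℝ) (Q : ℕ) : Prop :=
  Q ≠ 0 ∧ ∃ c : ℝ, |c| ≤ 1 ∧ ∃ a : G, ∀ x, x.Coprime 30 → Nat.Coprime x r →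
    F x = c * (chR a x * J x Q)

lemma Ty.const (r : ℕ) {c : ℝ} (hc : |c| ≤ 1) : Ty r (fun _ => c) 1 := by
  refine ⟨one_ne_zero, c, hc, 0, ?_⟩
  intro x hx _
  rw [J_one_right, chR_zero hx]
  ring

lemma Ty.mul {r : ℕ} {F F' : ℕ → ℝ} {Q Q' : ℕ} (h : Ty r F Q) (h' : Ty r F' Q') :
    Ty r (fun x => F x * F' x) (Q * Q') := by
  obtain ⟨hQ, c, hc, a, h1⟩ := h
  obtain ⟨hQ', c', hc', a', h1'⟩ := h'
  refine ⟨mul_ne_zero hQ hQ', c * c', ?_, a + a', ?_⟩
  · rw [abs_mul]
    exact mul_le_one₀ hc (abs_nonneg _) hc'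
  · intro x hx hxr
    dsimp only
    rw [h1 x hx hxr, h1' x hx hxr, J_mul_right _ _ _ hQ hQ', chR_add]
    ring

lemma Ty.prod {r : ℕ} {κ : Type*} (s : Finset κ) (F : κ → ℕ → ℝ) (Q : κ → ℕ)
    (h : ∀ k ∈ s, Ty r (F k) (Q k)) : Ty r (fun x => ∏ k ∈ s, F k x) (∏ k ∈ s, Q k) := by
  classical
  induction s using Finset.induction_on with
  | empty => simpa using Ty.const r (c := 1) (by simp)
  | insert a s ha ih =>
    have h1 := Ty.mul (h a (Finset.mem_insert_self _ _))
      (ih (fun k hk => h k (Finset.mem_insert_of_mem hk)))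
    simpa [Finset.prod_insert ha] using h1

lemma Ty.J1 (r : ℕ) {m : ℕ} (hm : m ≠ 0) : Ty r (fun x => J x m) m := by
  refine ⟨hm, 1, by simp, 0, ?_⟩
  intro x hx _
  rw [chR_zero hx]
  ring

lemma chR_e (a : ZMod 2) {x : ℕ} (hx : x.Coprime 30) :
    chR (a, 0, 0, 0) x = sg (a * (cl x).1) := by
  rw [chR_cop hx]
  congr 1
  simp [dotG]

lemma Ty.J2 (r : ℕ) {m : ℕ} (hm : m.Coprime 30) (h0 : m ≠ 0) : Ty r (fun x => J m x) m := by
  refine ⟨h0, 1, by simp, ((cl m).1, 0, 0, 0), ?_⟩
  intro x hx _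
  dsimp only
  rw [J_recip hm hx, chR_e _ hx]
  ring

lemma Ty.J12 {r m : ℕ} (hm : m.Coprime 30) (hmr : m ∣ r) :
    Ty r (fun x => J x m * J m x) 1 := by
  refine ⟨one_ne_zero, 1, by simp, ((cl m).1, 0, 0, 0), ?_⟩
  intro x hx hxr
  have h := J_sq (Nat.Coprime.coprime_dvd_right hmr hxr)
  dsimp only
  rw [J_recip hm hx, J_one_right, chR_e _ hx]
  linear_combination (sg ((cl m).1 * (cl x).1)) * h

section general

variable {ι : Type*} [Fintype ι] [DecidableEq ι]

/-- all factors of the sign in which the coordinate `v` occurs in a symbol -/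
lemma wt2_ty (P : ι → ι → ZMod 2) (hP : ∀ w, P w w = 0) (v : ι) (D : ι → ℕ)
    (hcop : (∏ u, D u).Coprime 30) (hpos : ∀ u, 1 ≤ D u) :
    Ty (∏ u, D u) (fun x => ∏ s, ∏ t, (if P s t = 1 then J (update D v x s) (update D v x t) else 1))
      (lprod P v D) := by
  set r := ∏ u, D u with hr
  have hdvd : ∀ t, D t ∣ r := fun t => Finset.dvd_prod_of_mem _ (Finset.mem_univ t)
  have hcopt : ∀ t, (D t).Coprime 30 := fun t => Nat.Coprime.coprime_dvd_left (hdvd t) hcop
  have hne : ∀ t, D t ≠ 0 := fun t => by have := hpos t; omega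
  -- decomposition
  have hdec : ∀ x, ∏ s, ∏ t, (if P s t = 1 then J (update D v x s) (update D v x t) else 1)
      = (∏ t ∈ univ.erase v, ((if P v t = 1 then J x (D t) else 1) *
          (if P t v = 1 then J (D t) x else 1))) *
        ∏ s ∈ univ.erase v, ∏ t ∈ univ.erase v, (if P s t = 1 then J (D s) (D t) else 1) := by
    intro x
    rw [← Finset.mul_prod_erase univ _ (Finset.mem_univ v)]
    rw [← Finset.mul_prod_erase univ (fun t => (if P v t = 1 then J (update D v x v) (update D v x t)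
      else 1)) (Finset.mem_univ v)]
    have h1 : ∀ s ∈ univ.erase v, ∏ t, (if P s t = 1 then J (update D v x s) (update D v x t) else 1)
        = (if P s v = 1 then J (D s) x else 1) *
          ∏ t ∈ univ.erase v, (if P s t = 1 then J (D s) (D t) else 1) := by
      intro s hs
      rw [← Finset.mul_prod_erase univ _ (Finset.mem_univ v)]
      rw [update_self, update_of_ne (Finset.ne_of_mem_erase hs)]
      congr 1
      apply Finset.prod_congr rfl
      intro t ht
      rw [update_of_ne (Finset.ne_of_mem_erase ht)]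
    rw [Finset.prod_congr rfl h1, Finset.prod_mul_distrib, Finset.prod_mul_distrib]
    have h2 : ∏ t ∈ univ.erase v, (if P v t = 1 then J (update D v x v) (update D v x t) else 1)
        = ∏ t ∈ univ.erase v, (if P v t = 1 then J x (D t) else 1) := by
      apply Finset.prod_congr rfl
      intro t ht
      rw [update_self, update_of_ne (Finset.ne_of_mem_erase ht)]
    rw [h2, hP v]
    rw [if_neg (by decide)]
    ring
  have hty1 : ∀ t ∈ univ.erase v, Ty r (fun x => (if P v t = 1 then J x (D t) else 1) *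
          (if P t v = 1 then J (D t) x else 1)) (if P v t = P t v then 1 else D t) := by
    intro t _
    by_cases h1 : P v t = 1
    · by_cases h2 : P t v = 1
      · simp only [h1, h2, if_true]
        exact Ty.J12 (hcopt t) (hdvd t)
      · have h3 : ¬ (P v t = P t v) := by
          rw [h1]
          exact fun h => h2 h.symm
        simp only [if_pos h1, if_neg h2, if_neg h3, mul_one]
        exact Ty.J1 r (hne t)
    · by_cases h2 : P t v = 1
      · have h3 : ¬ (P v t = P t v) := by
          rw [h2]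
          exact h1
        simp only [if_neg h1, if_pos h2, if_neg h3, one_mul]
        exact Ty.J2 r (hcopt t) (hne t)
      · have h01 : ∀ z : ZMod 2, z ≠ 1 → z = 0 := by decide
        have h3 : P v t = P t v := by rw [h01 _ h1, h01 _ h2]
        simp only [if_neg h1, if_neg h2, if_pos h3, mul_one]
        exact Ty.const r (by simp)
  have h1 := Ty.prod (univ.erase v) _ _ hty1
  have hc : |∏ s ∈ univ.erase v, ∏ t ∈ univ.erase v, (if P s t = 1 then J (D s) (D t) else 1)|
      ≤ 1 := by
    rw [Finset.abs_prod]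
    apply Finset.prod_le_one (fun _ _ => abs_nonneg _)
    intro s _
    rw [Finset.abs_prod]
    exact Finset.prod_le_one (fun _ _ => abs_nonneg _) (fun t _ => Jif_abs _ _ _)
  have h2 := Ty.mul h1 (Ty.const r hc)
  have hQ : (∏ t ∈ univ.erase v, if P v t = P t v then 1 else D t) * 1 = lprod P v D := by
    unfold lprod
    rw [← Finset.mul_prod_erase univ _ (Finset.mem_univ v), if_pos rfl]
    ring
  rw [hQ] at h2
  simp only [hdec]
  exact h2

/-- the summand as a function of one coordinate -/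
lemma one_var (w : Wt ι) (v : ι) (D : ι → ℕ) (hDv : D v = 1) (hcop : (∏ u, D u).Coprime 30)
    (hpos : ∀ u, 1 ≤ D u) :
    ∃ c : ℝ, |c| ≤ 1 ∧ ∃ a : G, ∀ x, 2 ≤ x → w.g (update D v x)
      = c * ((if Squarefree x ∧ Nat.Coprime x (∏ u, D u) then qN w.N x else 0) *
        (chR a x * J x (lprod w.P v D))) := by
  set r := ∏ u, D u with hr
  obtain ⟨hQ0, c, hc, a, h⟩ := wt2_ty w.P w.P_self v D hcop hpos
  rw [← hr] at h
  set A : ℝ := ∏ u ∈ univ.erase v, w.f u (D u) with hA
  have hA1 : |A| ≤ 1 := by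
    rw [hA, Finset.abs_prod]
    apply Finset.prod_le_one (fun _ _ => abs_nonneg _)
    intro u _
    exact w.f_abs _ _
  have hwt1 : ∀ x, ∏ u, w.f u (update D v x u) = w.f v x * A := by
    intro x
    rw [← Finset.mul_prod_erase univ _ (Finset.mem_univ v), update_self, hA]
    congr 1
    apply Finset.prod_congr rfl
    intro u hu
    rw [update_of_ne (Finset.ne_of_mem_erase hu)]
  refine ⟨pw w.N r * A * c * w.th v 2, ?_, w.b v + a, ?_⟩
  · rw [abs_mul, abs_mul, abs_mul]
    exact mul_le_one₀ (mul_le_one₀ (mul_le_one₀ (pw_abs w.hN _) (abs_nonneg _) hA1)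
      (abs_nonneg _) hc) (abs_nonneg _) (w.th_abs _ _)
  intro x hx2
  unfold Wt.g
  rw [prod_upd D v x hDv, ← hr]
  by_cases hxr : Nat.Coprime x r
  · rw [pw_mul hxr]
    by_cases hsq : Squarefree x
    · by_cases hx : x.Coprime 30
      · rw [if_pos ⟨hsq, hxr⟩]
        unfold Wt.wt
        have hx2' := h x hx hxr
        dsimp only at hx2'
        rw [hwt1 x, hx2']
        have hpw : pw w.N x = qN w.N x := by
          unfold pw qN
          rw [if_pos ⟨hsq, hx⟩]
        unfold Wt.f
        rw [hpw, chR_add, w.th_const v x hx2]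
        ring
      · rw [pw_not_cop hx, chR_ncop hx]
        ring
    · rw [pw_not_sq hsq, if_neg (fun h => hsq h.1)]
      ring
  · rw [if_neg (fun h => hxr h.2), pw_not_sq]
    · ring
    · intro h3
      exact hxr (Nat.coprime_of_squarefree_mul h3)

lemma wt_abs (w : Wt ι) (D : ι → ℕ) : |w.wt D| ≤ 1 := by
  unfold Wt.wt
  rw [abs_mul, Finset.abs_prod, Finset.abs_prod]
  refine mul_le_one₀ ?_ (Finset.prod_nonneg (fun _ _ => abs_nonneg _)) ?_
  · apply Finset.prod_le_one (fun _ _ => abs_nonneg _)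
    intro u _
    exact w.f_abs _ _
  · apply Finset.prod_le_one (fun _ _ => abs_nonneg _)
    intro s _
    rw [Finset.abs_prod]
    exact Finset.prod_le_one (fun _ _ => abs_nonneg _) (fun t _ => Jif_abs _ _ _)

lemma g_abs (w : Wt ι) (D : ι → ℕ) : |w.g D| ≤ sqh (qN w.N) D := by
  unfold Wt.g sqh
  rw [abs_mul]
  have h1 : |pw w.N (∏ u, D u)| ≤ if Squarefree (∏ u, D u) then qN w.N (∏ u, D u) else 0 := by
    by_cases h : Squarefree (∏ u, D u)
    · rw [if_pos h]
      unfold pw
      split_ifs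
      · unfold qN
        rw [abs_of_nonneg (by positivity)]
      · rw [abs_zero]
        exact qN_nonneg _ _
    · rw [if_neg h, pw_not_sq h]
      simp
  calc |pw w.N (∏ u, D u)| * |w.wt D| ≤ |pw w.N (∏ u, D u)| * 1 :=
        mul_le_mul_of_nonneg_left (wt_abs w D) (abs_nonneg _)
    _ = |pw w.N (∏ u, D u)| := mul_one _
    _ ≤ _ := h1

end general

end Vale.Agent.P017.H509
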