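import Vale.Agent.P017.H509.A4
import Vale.Agent.P014.H580.K7

/-!
Tuples with a large coordinate linked to a small nontrivial coordinate, analytic part.
-/

namespace Vale.Agent.P017.H509

open Finset Function
open Vale.Agent.P014.FM (TX mem_TX prod_upd one_le_prod sqh sqh_nonneg lprod lprod_dvd lprod_le
  Cv MV allP HH HH_upd HH_small HH_ne HH_abs NQ tr sum_fibT sum_recipT)
open Vale.Agent.P014.H580 (J_mul_right J_abs)
open Vale.Agent.P014.H687.FM (NPChar SW fm3 J_per J_zero)

theorem npchar_chR_J {Q : ℕ} (hQ : Q.Coprime 30) (hs : ¬ IsSquare Q) (a : G) :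
    NPChar (120 * Q) (fun m => ((chR a m * J m Q : ℝ) : ℂ)) := by
  have hQ0 : Q ≠ 0 := by rintro rfl; exact absurd hQ (by decide)
  obtain ⟨n, hn⟩ := Vale.Agent.P014.H580.exists_neg (odd_of_cop hQ) hs
  have hcop : Nat.Coprime Q 120 := cop120.2 hQ
  obtain ⟨b, hb1, hb2⟩ := Nat.chineseRemainder hcop n 1
  have hJb : J b Q = -1 := by
    unfold Vale.Agent.P014.H580.J
    have h1 : jacobiSym (b : ℤ) Q = jacobiSym (n : ℤ) Q := by
      rw [jacobiSym.mod_left, jacobiSym.mod_left (n : ℤ)]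
      congr 1
      exact_mod_cast hb1
    rw [h1, hn]
    simp
  have hb120 : b % 120 = 1 := hb2
  have hb30 : b.Coprime 30 := by
    rw [← coprime_mod, hb120]
    norm_num
  have hcb : chR a b = 1 := by
    rw [chR_cop hb30, ← cl_mod, hb120, cl_one, dotG_zero_right, sg_zero]
  refine NPChar.of_ne_one (b := b) (by omega) ?_ ?_ ?_ ?_ ?_ ?_
  · intro m k
    rw [chR_mul, Vale.Agent.P014.H580.J_mul_left]
    push_cast
    ring
  · intro m
    rw [chR_per, J_per m 120 Q]
  · intro m hm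
    by_cases h : m.Coprime 30
    · have : ¬ m.Coprime Q := fun hc => hm (Nat.Coprime.mul_right (cop120.2 h) hc)
      rw [J_zero hQ0 this]
      simp
    · rw [chR_ncop h]
      simp
  · intro m
    rw [Complex.norm_real, Real.norm_eq_abs, abs_mul]
    exact mul_le_one₀ (chR_abs a m) (abs_nonneg _) (Vale.Agent.P014.H580.J_abs m Q)
  · rw [hJb, hcb]
    norm_num
  · refine Nat.Coprime.mul_right (cop120.2 hb30) ?_
    by_contra h
    have := J_zero hQ0 h
    rw [this] at hJb
    norm_num at hJb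

/-- the character sum -/
noncomputable def SC (a : G) (Q r j N : ℕ) : ℝ :=
  ∑ n ∈ (Icc 1 N).filter (fun n => Squarefree n ∧ n.Coprime r ∧ n.primeFactors.card = j),
    chR a n * J n Q

/-- the character sum estimate -/
def CharB (X Y J0 : ℕ) (W M : ℝ) : Prop :=
  ∀ (a : G) (Q r j N : ℕ), Q.Coprime 30 → ¬ IsSquare Q → (120 * Q : ℝ) ≤ W → 1 ≤ r → r ≤ X →
    j ≤ J0 → Y ≤ N + 1 → N ≤ X → |SC a Q r j N| ≤ N / M

/-- the character sum estimate from the prime number theorem for progressions -/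
lemma charB (hsw : SW) (K η : ℝ) (hK : 1 ≤ K) (hη : 0 < η) : ∃ X₀ : ℝ, ∀ X Y J0 : ℕ, X₀ ≤ X →
    3 ≤ X → Real.exp ((Real.log X) ^ η) + 1 ≤ Y → (J0 : ℝ) ≤ K * Real.log (Real.log X) →
    CharB X Y J0 ((Real.log X) ^ K) ((Real.log X) ^ K) := by
  obtain ⟨X₀, h⟩ := fm3 hsw K η hK hη
  refine ⟨X₀, ?_⟩
  intro X Y J0 hX hX3 hY hJ0 a Q r j N hQo hQs hQW hr hrX hj hYN hNX
  have hX1 : (1 : ℝ) ≤ X := by exact_mod_cast (by omega : 1 ≤ X)
  have hXK : (X : ℝ) ≤ (X : ℝ) ^ K := by
    calc (X : ℝ) = (X : ℝ) ^ (1 : ℝ) := (Real.rpow_one _).symm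
      _ ≤ (X : ℝ) ^ K := Real.rpow_le_rpow_of_exponent_le hX1 hK
  have hNR : (N : ℝ) ≤ X := by exact_mod_cast hNX
  have hrR : (r : ℝ) ≤ X := by exact_mod_cast hrX
  have hjR : (j : ℝ) ≤ J0 := by exact_mod_cast hj
  have hYR : (Y : ℝ) ≤ N + 1 := by exact_mod_cast hYN
  have h1 := h X hX (120 * Q) (fun m => ((chR a m * J m Q : ℝ) : ℂ)) (by push_cast; exact hQW)
    (npchar_chR_J hQo hQs a) r hr (hrR.trans hXK) j (hjR.trans hJ0) N (by linarith)
    (hNR.trans hXK)
  rw [Nat.floor_natCast] at h1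
  rw [← Complex.ofReal_sum, Complex.norm_real, Real.norm_eq_abs] at h1
  exact h1

lemma geom_le {N : ℕ} (hN : 2 ≤ N) (n : ℕ) : ∑ j ∈ range n, ((1 : ℝ) / N) ^ j ≤ 2 := by
  have hN' : (2 : ℝ) ≤ N := by exact_mod_cast hN
  have h0 : (1 : ℝ) / N ≤ 1 / 2 := by
    apply one_div_le_one_div_of_le (by norm_num) hN'
  have h : ∀ n : ℕ, ∑ j ∈ range n, ((1 : ℝ) / 2) ^ j ≤ 2 - 2 * (1 / 2) ^ n := by
    intro n
    induction n with
    | zero => norm_num
    | succ n ih =>
      rw [Finset.sum_range_succ, pow_succ]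
      linarith
  have h1 := h n
  have : (0 : ℝ) ≤ (1 / 2) ^ n := by positivity
  calc ∑ j ∈ range n, ((1 : ℝ) / N) ^ j ≤ ∑ j ∈ range n, ((1 : ℝ) / 2) ^ j := by
        apply Finset.sum_le_sum
        intro j _
        apply pow_le_pow_left₀ (by positivity) h0
    _ ≤ 2 := by linarith

/-- splitting according to the number of prime factors -/
lemma split_sum (N' : ℕ) (a : G) (Q r J0 N Y : ℕ) (hY : 1 ≤ Y) (hYN : Y ≤ N) :
    ∑ x ∈ Icc 1 N, (if x.primeFactors.card ≤ J0 then
        (if Y ≤ x then ((if Squarefree x ∧ Nat.Coprime x r then qN N' x else 0) *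
          (chR a x * J x Q)) else 0) else 0)
      = ∑ j ∈ range (J0 + 1), ((1 : ℝ) / N') ^ j * (SC a Q r j N - SC a Q r j (Y - 1)) := by
  have h1 : ∀ j, SC a Q r j N - SC a Q r j (Y - 1)
      = ∑ x ∈ Icc 1 N, (if Y ≤ x then (if Squarefree x ∧ x.Coprime r ∧ x.primeFactors.card = j
          then chR a x * J x Q else 0) else 0) := by
    intro j
    unfold SC
    rw [Finset.sum_filter, Finset.sum_filter]
    have h2 : Icc 1 N = Icc 1 (Y - 1) ∪ Icc Y N := by
      ext x
      simp only [mem_union, mem_Icc]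
      omega
    have hd : Disjoint (Icc 1 (Y - 1)) (Icc Y N) := by
      rw [Finset.disjoint_left]
      intro x hx hx'
      simp only [mem_Icc] at hx hx'
      omega
    rw [h2, Finset.sum_union hd, Finset.sum_union hd, add_sub_cancel_left]
    have h3 : ∑ x ∈ Icc 1 (Y - 1), (if Y ≤ x then (if Squarefree x ∧ x.Coprime r ∧
        x.primeFactors.card = j then chR a x * J x Q else 0) else 0) = 0 := by
      apply Finset.sum_eq_zero
      intro x hx
      rw [mem_Icc] at hx
      rw [if_neg (by omega)]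
    rw [h3, zero_add]
    apply Finset.sum_congr rfl
    intro x hx
    rw [mem_Icc] at hx
    rw [if_pos hx.1]
  simp only [h1, Finset.mul_sum]
  rw [Finset.sum_comm]
  apply Finset.sum_congr rfl
  intro x _
  by_cases hYx : Y ≤ x
  · simp only [if_pos hYx]
    by_cases hsq : Squarefree x ∧ x.Coprime r
    · rw [if_pos hsq]
      have h4 : ∀ j, (if Squarefree x ∧ x.Coprime r ∧ x.primeFactors.card = j
          then chR a x * J x Q else 0) = if x.primeFactors.card = j then chR a x * J x Q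
            else 0 := by
        intro j
        by_cases hj : x.primeFactors.card = j
        · rw [if_pos ⟨hsq.1, hsq.2, hj⟩, if_pos hj]
        · rw [if_neg (fun h => hj h.2.2), if_neg hj]
      simp only [h4, mul_ite, mul_zero]
      rw [Finset.sum_ite_eq]
      by_cases hJ : x.primeFactors.card ≤ J0
      · rw [if_pos hJ, if_pos (by rw [mem_range]; omega)]
        rfl
      · rw [if_neg hJ, if_neg (by rw [mem_range]; omega)]
    · have h4 : ∀ j, (if Squarefree x ∧ x.Coprime r ∧ x.primeFactors.card = j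
          then chR a x * J x Q else 0) = 0 := by
        intro j
        rw [if_neg (fun h => hsq ⟨h.1, h.2.1⟩)]
      simp [h4, hsq]
  · simp [hYx]

section general

open Classical

variable {ι : Type*} [Fintype ι] [DecidableEq ι]

/-- the modulus is not a square -/
lemma lprod_nonsq (P : ι → ι → ZMod 2) (v : ι) (D : ι → ℕ) (hsq : Squarefree (∏ u, D u))
    (h : ∃ t, P v t ≠ P t v ∧ 1 < D t) : ¬ IsSquare (lprod P v D) := by
  set L := lprod P v D with hL
  have hLd : L ∣ ∏ u, D u := lprod_dvd P v D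
  have hLsq : Squarefree L := Squarefree.squarefree_of_dvd hLd hsq
  have hL1 : L ≠ 1 := by
    obtain ⟨t, ht1, ht2⟩ := h
    have h1 : D t ∣ L := by
      rw [hL]
      unfold lprod
      have h2 : D t = (if P v t = P t v then 1 else D t) := by rw [if_neg ht1]
      conv_lhs => rw [h2]
      exact Finset.dvd_prod_of_mem _ (Finset.mem_univ t)
    intro h3
    rw [h3] at h1
    have := Nat.dvd_one.1 h1
    omega
  rintro ⟨s, hs⟩
  have h1 : s * s ∣ L := Dvd.intro 1 (by rw [mul_one]; exact hs.symm)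
  have h2 := hLsq s h1
  rw [Nat.isUnit_iff] at h2
  rw [h2] at hs
  exact hL1 (by rw [hs])

/-- the inner sum -/
lemma S2_inner (w : Wt ι) (hN2 : 2 ≤ w.N) (X Y Z J0 : ℕ) (W M : ℝ) (hM : 0 < M) (hY : 2 ≤ Y)
    (hZ1 : 1 ≤ Z) (hZY : Z ≤ Y)
    (hW : (120 * (Z : ℝ) ^ (Fintype.card ι)) ≤ W) (hB : CharB X Y J0 W M)
    (V : Finset ι) (v : ι) (D : ι → ℕ) (hD : D ∈ TX ι X) (hDv : D v = 1) :
    |∑ x ∈ Icc 1 (X / ∏ u, D u), w.g (update D v x) *
      (HH w.P Z Y V v (update D v x) * tr J0 x)| ≤ 4 * X / M * (1 / ((∏ u, D u : ℕ) : ℝ)) := by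
  rw [mem_TX] at hD
  obtain ⟨hD1, hD2⟩ := hD
  set r := ∏ u, D u with hr
  have hr1 : 1 ≤ r := one_le_prod hD1
  have hrR : (0 : ℝ) < r := by exact_mod_cast hr1
  have hnn : 0 ≤ 4 * X / M * (1 / (r : ℝ)) := by positivity
  have hzero : (∀ x ∈ Icc 1 (X / r), w.g (update D v x) *
      (HH w.P Z Y V v (update D v x) * tr J0 x) = 0) →
      |∑ x ∈ Icc 1 (X / r), w.g (update D v x) *
      (HH w.P Z Y V v (update D v x) * tr J0 x)| ≤ 4 * X / M * (1 / (r : ℝ)) := by
    intro h
    rw [Finset.sum_eq_zero h, abs_zero]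
    exact hnn
  -- degenerate cases
  by_cases hκ : HH w.P Z Y V v (update D v Y) = 0
  · apply hzero
    intro x _
    by_cases hx : Y ≤ x
    · rw [HH_upd w.P Z Y V v D hY hZY x hx, hκ]
      ring
    · rw [HH_small w.P Z Y V v D x hx]
      ring
  by_cases hpw : pw w.N r = 0
  · apply hzero
    intro x _
    have : w.g (update D v x) = 0 := by
      unfold Wt.g
      rw [prod_upd D v x hDv, ← hr]
      by_cases hxr : Nat.Coprime x r
      · rw [pw_mul hxr, hpw]
        ring
      · rw [pw_not_sq]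
        · ring
        · intro h3
          exact hxr (Nat.coprime_of_squarefree_mul h3)
    rw [this]
    ring
  have hcop : r.Coprime 30 := by
    by_contra h
    exact hpw (pw_not_cop h)
  have hsq : Squarefree r := by
    by_contra h
    exact hpw (pw_not_sq h)
  obtain ⟨hlt, hex⟩ := HH_ne w.P Z Y V v D hZY hκ
  obtain ⟨c, hc, a, hone⟩ := one_var w v D hDv hcop hD1
  rw [← hr] at hone
  set Q := lprod w.P v D with hQ
  set N := X / r with hN
  by_cases hYN : Y ≤ N
  swap
  · apply hzero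
    intro x hx
    rw [mem_Icc] at hx
    rw [HH_small w.P Z Y V v D x (by omega)]
    ring
  have hQcop : Q.Coprime 30 := by
    have := lprod_dvd w.P v D
    rw [← hr] at this
    exact Nat.Coprime.coprime_dvd_left this hcop
  have hQns : ¬ IsSquare Q := lprod_nonsq w.P v D hsq hex
  have hQW : (120 * Q : ℝ) ≤ W := by
    refine le_trans ?_ hW
    have h1 : (Q : ℝ) ≤ (Z : ℝ) ^ (Fintype.card ι) := by
      exact_mod_cast lprod_le w.P v D Z hZ1 hlt
    gcongr
  have hterm : ∑ x ∈ Icc 1 N, w.g (update D v x) *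
      (HH w.P Z Y V v (update D v x) * tr J0 x)
      = c * HH w.P Z Y V v (update D v Y) * ∑ x ∈ Icc 1 N, (if x.primeFactors.card ≤ J0 then
        (if Y ≤ x then ((if Squarefree x ∧ Nat.Coprime x r then qN w.N x else 0) *
          (chR a x * J x Q)) else 0) else 0) := by
    rw [Finset.mul_sum]
    apply Finset.sum_congr rfl
    intro x _
    by_cases hYx : Y ≤ x
    · rw [hone x (by omega)]
      unfold tr
      by_cases hJ : x.primeFactors.card ≤ J0
      · rw [if_pos hJ, if_pos hJ, if_pos hYx, HH_upd w.P Z Y V v D hY hZY x hYx]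
        ring
      · rw [if_neg hJ, if_neg hJ]
        ring
    · rw [HH_small w.P Z Y V v D x hYx, if_neg hYx]
      simp
  rw [hterm, split_sum w.N a Q r J0 N Y (by omega) hYN, abs_mul, abs_mul]
  have hNX : N ≤ X := Nat.div_le_self _ _
  have hNR : (N : ℝ) ≤ X / r := Nat.cast_div_le
  have h3 : |∑ j ∈ range (J0 + 1), ((1 : ℝ) / w.N) ^ j * (SC a Q r j N - SC a Q r j (Y - 1))|
      ≤ 4 * X / M * (1 / (r : ℝ)) := by
    refine (Finset.abs_sum_le_sum_abs _ _).trans ?_
    have h4 : ∀ j ∈ range (J0 + 1), |((1 : ℝ) / w.N) ^ j * (SC a Q r j N - SC a Q r j (Y - 1))|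
        ≤ (1 / w.N) ^ j * (2 * (X / r) / M) := by
      intro j hj
      rw [mem_range] at hj
      rw [abs_mul, abs_of_nonneg (by positivity : (0 : ℝ) ≤ (1 / (w.N : ℝ)) ^ j)]
      apply mul_le_mul_of_nonneg_left _ (by positivity)
      have h5 := hB a Q r j N hQcop hQns hQW hr1 hD2 (by omega) (by omega) hNX
      have h6 := hB a Q r j (Y - 1) hQcop hQns hQW hr1 hD2 (by omega) (by omega) (by omega)
      have h7 : ((Y - 1 : ℕ) : ℝ) / M ≤ (X / r) / M := by
        have : ((Y - 1 : ℕ) : ℝ) ≤ N := by exact_mod_cast (by omega : Y - 1 ≤ N)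
        have h8 := this.trans hNR
        gcongr
      have h8 : (N : ℝ) / M ≤ (X / r) / M := by gcongr
      refine (abs_sub _ _).trans ?_
      have : 2 * ((X : ℝ) / r) / M = (X / r) / M + (X / r) / M := by ring
      rw [this]
      linarith
    refine (Finset.sum_le_sum h4).trans ?_
    rw [← Finset.sum_mul]
    have h5 := geom_le hN2 (J0 + 1)
    calc (∑ j ∈ range (J0 + 1), ((1 : ℝ) / w.N) ^ j) * (2 * ((X : ℝ) / r) / M)
        ≤ 2 * (2 * ((X : ℝ) / r) / M) := by gcongr
      _ = 4 * X / M * (1 / (r : ℝ)) := by ring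
  have h4 : |c| * |HH w.P Z Y V v (update D v Y)| ≤ 1 :=
    mul_le_one₀ hc (abs_nonneg _) (HH_abs w.P Z Y V v _)
  calc |c| * |HH w.P Z Y V v (update D v Y)| *
        |∑ j ∈ range (J0 + 1), ((1 : ℝ) / w.N) ^ j * (SC a Q r j N - SC a Q r j (Y - 1))|
      ≤ 1 * |∑ j ∈ range (J0 + 1), ((1 : ℝ) / w.N) ^ j * (SC a Q r j N - SC a Q r j (Y - 1))| := by
        gcongr
    _ ≤ _ := by rw [one_mul]; exact h3

/-- the tail over many prime factors -/
noncomputable def tailS (ι : Type*) [Fintype ι] [DecidableEq ι] (N X J0 : ℕ) : ℝ :=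
  ∑ D ∈ (TX ι X).filter (fun D => J0 < (∏ u, D u).primeFactors.card), sqh (qN N) D

/-- one coordinate -/
lemma S2_one (w : Wt ι) (hN2 : 2 ≤ w.N) (X Y Z J0 : ℕ) (W M : ℝ) (hM : 0 < M) (hY : 2 ≤ Y)
    (hZ1 : 1 ≤ Z) (hZY : Z ≤ Y)
    (hW : (120 * (Z : ℝ) ^ (Fintype.card ι)) ≤ W) (hB : CharB X Y J0 W M)
    (V : Finset ι) (v : ι) :
    |∑ D ∈ TX ι X, w.g D * HH w.P Z Y V v D|
      ≤ 4 * X / M * (1 + Real.log X) ^ (Fintype.card ι) + tailS ι w.N X J0 := by
  have hsplit : ∑ D ∈ TX ι X, w.g D * HH w.P Z Y V v D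
      = ∑ D ∈ TX ι X, w.g D * (HH w.P Z Y V v D * tr J0 (D v))
        + ∑ D ∈ TX ι X, w.g D * (HH w.P Z Y V v D * (1 - tr J0 (D v))) := by
    rw [← Finset.sum_add_distrib]
    apply Finset.sum_congr rfl
    intro D _
    ring
  rw [hsplit]
  refine (abs_add_le _ _).trans (add_le_add ?_ ?_)
  · rw [sum_fibT X v]
    refine (Finset.abs_sum_le_sum_abs _ _).trans ?_
    have h1 : ∀ D ∈ (TX ι X).filter (fun D => D v = 1),
        |∑ x ∈ Icc 1 (X / ∏ u, D u), w.g (update D v x) *
          (HH w.P Z Y V v (update D v x) * tr J0 (update D v x v))|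
        ≤ 4 * X / M * (1 / ((∏ u, D u : ℕ) : ℝ)) := by
      intro D hD
      rw [Finset.mem_filter] at hD
      have := S2_inner w hN2 X Y Z J0 W M hM hY hZ1 hZY hW hB V v D hD.1 hD.2
      simpa only [update_self] using this
    refine (Finset.sum_le_sum h1).trans ?_
    rw [← Finset.mul_sum]
    apply mul_le_mul_of_nonneg_left _ (by positivity)
    refine le_trans ?_ (sum_recipT (ι := ι) X)
    apply Finset.sum_le_sum_of_subset_of_nonneg
    · exact Finset.filter_subset _ _
    · intro D _ _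
      positivity
  · refine (Finset.abs_sum_le_sum_abs _ _).trans ?_
    unfold tailS
    rw [Finset.sum_filter]
    apply Finset.sum_le_sum
    intro D hD
    rw [mem_TX] at hD
    by_cases hJ : J0 < (∏ u, D u).primeFactors.card
    · rw [if_pos hJ, abs_mul]
      have h1 := g_abs w D
      have h2 : |HH w.P Z Y V v D * (1 - tr J0 (D v))| ≤ 1 := by
        rw [abs_mul]
        refine mul_le_one₀ (HH_abs _ _ _ _ _ _) (abs_nonneg _) ?_
        unfold tr
        split_ifs <;> simp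
      calc |w.g D| * |HH w.P Z Y V v D * (1 - tr J0 (D v))|
          ≤ sqh (qN w.N) D * 1 := mul_le_mul h1 h2 (abs_nonneg _) (sqh_nonneg _ (qN_nonneg _) _)
        _ = sqh (qN w.N) D := mul_one _
    · rw [if_neg hJ]
      have h1 : tr J0 (D v) = 1 := by
        unfold tr
        rw [if_pos]
        have h2 : (D v).primeFactors ⊆ (∏ u, D u).primeFactors :=
          Nat.primeFactors_mono (Finset.dvd_prod_of_mem _ (Finset.mem_univ v))
            (by have := one_le_prod hD.1; omega)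
        have := Finset.card_le_card h2
        omega
      rw [h1]
      simp

/-- all coordinates -/
theorem S2 (w : Wt ι) (hN2 : 2 ≤ w.N) (X Y Z J0 : ℕ) (W M : ℝ) (hM : 0 < M) (hY : 2 ≤ Y)
    (hZ1 : 1 ≤ Z) (hZY : Z ≤ Y)
    (hW : (120 * (Z : ℝ) ^ (Fintype.card ι)) ≤ W) (hB : CharB X Y J0 W M)
    (V : Finset ι) :
    |∑ D ∈ TX ι X, w.g D * NQ Z (allP w.P) D
        - ∑ D ∈ TX ι X, w.g D * (NQ Z (allP w.P) D * MV w.P Y V D)|
      ≤ V.card * (4 * X / M * (1 + Real.log X) ^ (Fintype.card ι) + tailS ι w.N X J0) := by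
  induction V using Finset.induction_on with
  | empty => simp [MV]
  | insert v V hv ih =>
    have h3 := S2_one w hN2 X Y Z J0 W M hM hY hZ1 hZY hW hB V v
    have h4 : ∑ D ∈ TX ι X, w.g D * (NQ Z (allP w.P) D * MV w.P Y (insert v V) D)
        = ∑ D ∈ TX ι X, w.g D * (NQ Z (allP w.P) D * MV w.P Y V D)
          - ∑ D ∈ TX ι X, w.g D * HH w.P Z Y V v D := by
      rw [← Finset.sum_sub_distrib]
      apply Finset.sum_congr rfl
      intro D _
      have : MV w.P Y (insert v V) D = (1 - Cv w.P Y v D) * MV w.P Y V D := by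
        unfold MV
        rw [Finset.prod_insert hv]
      rw [this]
      unfold HH
      ring
    rw [h4, Finset.card_insert_of_notMem hv]
    push_cast
    have h5 : ∑ D ∈ TX ι X, w.g D * NQ Z (allP w.P) D -
        (∑ D ∈ TX ι X, w.g D * (NQ Z (allP w.P) D * MV w.P Y V D)
          - ∑ D ∈ TX ι X, w.g D * HH w.P Z Y V v D)
        = (∑ D ∈ TX ι X, w.g D * NQ Z (allP w.P) D
          - ∑ D ∈ TX ι X, w.g D * (NQ Z (allP w.P) D * MV w.P Y V D))
          + ∑ D ∈ TX ι X, w.g D * HH w.P Z Y V v D := by ring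
    rw [h5]
    refine (abs_add_le _ _).trans ?_
    linarith

end general

end Vale.Agent.P017.H509
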