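import Vale.Agent.P017.H509.A5
import Vale.Agent.P014.H687.FM3sw

/-!
The choice of the parameters, and the error terms.
-/

namespace Vale.Agent.P017.H509

open Finset Function
open Vale.Agent.P014.FM (TX mem_TX prod_upd one_le_prod sqh sqh_nonneg lprod lprod_dvd lprod_le
  Cv MV allP HH HH_upd HH_small HH_ne HH_abs NQ tr sum_fibT sum_recipT Lg NQ_cases MV_cases)
open Vale.Agent.P014.H687.FM (eventually_log_rpow_le sw)

/-- functions which are `o(X)` -/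
def Sm (f : ℕ → ℝ) : Prop := ∀ ε : ℝ, 0 < ε → ∃ X₀ : ℕ, ∀ X : ℕ, X₀ ≤ X → |f X| ≤ ε * X

lemma Sm.zero : Sm (fun _ => 0) := by
  intro ε hε
  refine ⟨0, fun X _ => ?_⟩
  rw [abs_zero]
  positivity

lemma Sm.add {f g : ℕ → ℝ} (hf : Sm f) (hg : Sm g) : Sm (fun X => f X + g X) := by
  intro ε hε
  obtain ⟨X₁, h1⟩ := hf (ε / 2) (by positivity)
  obtain ⟨X₂, h2⟩ := hg (ε / 2) (by positivity)
  refine ⟨max X₁ X₂, fun X hX => ?_⟩
  have a1 := h1 X ((le_max_left _ _).trans hX)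
  have a2 := h2 X ((le_max_right _ _).trans hX)
  refine (abs_add_le _ _).trans ?_
  linarith

lemma Sm.const_mul {f : ℕ → ℝ} (c : ℝ) (hf : Sm f) : Sm (fun X => c * f X) := by
  intro ε hε
  obtain ⟨X₁, h1⟩ := hf (ε / (|c| + 1)) (by positivity)
  refine ⟨X₁, fun X hX => ?_⟩
  have a1 := h1 X hX
  rw [abs_mul]
  have hc : |c| * |f X| ≤ |c| * (ε / (|c| + 1) * X) :=
    mul_le_mul_of_nonneg_left a1 (abs_nonneg _)
  refine hc.trans ?_
  have h3 : |c| * (ε / (|c| + 1) * X) = (|c| / (|c| + 1)) * (ε * X) := by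
    field_simp
  rw [h3]
  have h4 : |c| / (|c| + 1) ≤ 1 := by
    rw [div_le_one (by positivity)]
    linarith [abs_nonneg c]
  have h5 : 0 ≤ ε * X := by positivity
  calc |c| / (|c| + 1) * (ε * X) ≤ 1 * (ε * X) := mul_le_mul_of_nonneg_right h4 h5
    _ = _ := one_mul _

lemma Sm.neg {f : ℕ → ℝ} (hf : Sm f) : Sm (fun X => - f X) := by
  have := hf.const_mul (-1)
  simpa using this

lemma Sm.sub {f g : ℕ → ℝ} (hf : Sm f) (hg : Sm g) : Sm (fun X => f X - g X) := by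
  have := hf.add hg.neg
  simpa [sub_eq_add_neg] using this

lemma Sm.sum {α : Type*} (s : Finset α) {f : α → ℕ → ℝ} (hf : ∀ a ∈ s, Sm (f a)) :
    Sm (fun X => ∑ a ∈ s, f a X) := by
  classical
  induction s using Finset.induction_on with
  | empty => simpa using Sm.zero
  | insert a s ha ih =>
    have h1 := (hf a (mem_insert_self _ _)).add (ih fun b hb => hf b (mem_insert_of_mem hb))
    simpa [Finset.sum_insert ha] using h1

lemma Sm.mono {f g : ℕ → ℝ} (hg : Sm g) (h : ∃ X₀ : ℕ, ∀ X ≥ X₀, |f X| ≤ |g X|) : Sm f := by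
  intro ε hε
  obtain ⟨X₁, h1⟩ := hg ε hε
  obtain ⟨X₂, h2⟩ := h
  exact ⟨max X₁ X₂, fun X hX => (h2 X ((le_max_right _ _).trans hX)).trans
    (h1 X ((le_max_left _ _).trans hX))⟩

lemma Sm.of_rate {f : ℕ → ℝ} {C δ X₁ : ℝ} (hδ : 0 < δ)
    (h : ∀ X : ℕ, X₁ ≤ X → |f X| ≤ C * X * (Real.log X) ^ (-δ)) : Sm f := by
  intro ε hε
  have ht : Filter.Tendsto (fun X : ℕ => C * (Real.log X) ^ (-δ)) Filter.atTop (nhds 0) := by
    have h1 := (tendsto_rpow_neg_atTop hδ).comp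
      (Real.tendsto_log_atTop.comp tendsto_natCast_atTop_atTop)
    have h2 := h1.const_mul C
    rw [mul_zero] at h2
    exact h2
  obtain ⟨X₂, hX₂⟩ := Filter.eventually_atTop.1 (ht.eventually (ge_mem_nhds hε))
  refine ⟨max ⌈X₁⌉₊ X₂, ?_⟩
  intro X hX
  have hX1 : X₁ ≤ X := (Nat.le_ceil _).trans (by exact_mod_cast (le_max_left _ _).trans hX)
  have h1 := h X hX1
  have h2 := hX₂ X ((le_max_right _ _).trans hX)
  refine h1.trans ?_
  calc C * X * (Real.log X) ^ (-δ) = (C * (Real.log X) ^ (-δ)) * X := by ring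
    _ ≤ ε * X := mul_le_mul_of_nonneg_right h2 (Nat.cast_nonneg _)

/-- the parameters -/
structure Par (n N X : ℕ) (L e K : ℝ) (Z Y J0 : ℕ) : Prop where
  hX : 9 ≤ X
  hL : Real.log X = L
  big : 2 ≤ L
  he : e = L ^ ((1 : ℝ) / (2 * N * n))
  Z1 : (L ^ (n + 2)) ^ 32 ≤ Z
  Z2 : 2 ≤ Z
  ZY : Z ≤ Y
  Ylow : Real.exp e + 1 ≤ Y
  Yup : Real.log Y ≤ 2 + e
  YX : (Y ^ n) ^ 2 ≤ X
  J1 : (J0 : ℝ) ≤ K * Real.log L
  J2 : 4 * n * Real.log L ≤ J0 + 1
  W : 120 * (Z : ℝ) ^ n ≤ L ^ K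
  M : L ^ (n + 1) ≤ L ^ K

/-- the exponent -/
def KK (n : ℕ) : ℕ := 32 * (n + 2) * n + n + 10

lemma par_ex {n N : ℕ} (hn : 1 ≤ n) (hN : 1 ≤ N) : ∃ X₀ : ℝ, ∀ X : ℕ, X₀ ≤ X →
    ∃ L e : ℝ, ∃ Z Y J0 : ℕ, Par n N X L e (KK n) Z Y J0 := by
  have hnR : (1 : ℝ) ≤ n := by exact_mod_cast hn
  have hNR : (1 : ℝ) ≤ N := by exact_mod_cast hN
  have hη0 : (0 : ℝ) < 1 / (2 * N * n) := by positivity
  have hη1 : (1 : ℝ) / (2 * N * n) ≤ 1 / 2 := by
    apply one_div_le_one_div_of_le (by norm_num)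
    calc (2 : ℝ) = 2 * 1 * 1 := by norm_num
      _ ≤ 2 * N * n := by gcongr
  have h := eventually_log_rpow_le 1 ((32 * (n + 2) + 1 : ℕ) : ℝ) (1 / (2 * N * n)) hη0
  obtain ⟨L₀, hL₀⟩ := Filter.eventually_atTop.1 h
  refine ⟨max (Real.exp (max L₀ (36 * n ^ 2))) 9, ?_⟩
  intro X hX
  have hX2 : Real.exp (max L₀ (36 * n ^ 2)) ≤ X := (le_max_left _ _).trans hX
  have hX9 : (9 : ℝ) ≤ X := (le_max_right _ _).trans hX
  have hX9' : 9 ≤ X := by exact_mod_cast hX9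
  have hXpos : (0 : ℝ) < X := by linarith
  obtain ⟨L, hL⟩ : ∃ L, Real.log X = L := ⟨_, rfl⟩
  have hLL' : max L₀ (36 * n ^ 2) ≤ L := by rw [← hL, Real.le_log_iff_exp_le hXpos]; exact hX2
  have hLL : L₀ ≤ L := (le_max_left _ _).trans hLL'
  have hL36 : 36 * (n : ℝ) ^ 2 ≤ L := (le_max_right _ _).trans hLL'
  have hbig : 2 ≤ L := by
    have : (1 : ℝ) ≤ (n : ℝ) ^ 2 := one_le_pow₀ hnR
    linarith
  have hexp := hL₀ L hLL
  rw [Real.rpow_one] at hexp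
  have hL0 : 0 < L := by linarith
  have hL1 : 1 ≤ L := by linarith
  obtain ⟨A, hA⟩ : ∃ A, (L ^ (n + 2)) ^ 32 = A := ⟨_, rfl⟩
  have hAL : L ≤ A := by
    rw [← hA, ← pow_mul]
    exact le_self_pow₀ hL1 (by positivity)
  obtain ⟨e, he⟩ : ∃ e, e = L ^ ((1 : ℝ) / (2 * N * n)) := ⟨_, rfl⟩
  rw [← he] at hexp
  have hLA : L * A ≤ Real.exp e := by
    have e1 : L * A = L ^ (32 * (n + 2) + 1) := by
      rw [← hA, ← pow_mul, ← pow_succ']
      congr 1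
      ring
    have e2 : L ^ (32 * (n + 2) + 1) = Real.exp (((32 * (n + 2) + 1 : ℕ) : ℝ) * Real.log L) := by
      rw [Real.exp_nat_mul, Real.exp_log hL0]
    rw [e1, e2]
    apply Real.exp_le_exp.2
    linarith
  have he1 : 1 ≤ e := by rw [he]; exact Real.one_le_rpow hL1 hη0.le
  refine ⟨L, e, ⌈A⌉₊, ⌈Real.exp e⌉₊ + 1, ⌊4 * n * Real.log L⌋₊, ?_⟩
  have hZ1 : A ≤ (⌈A⌉₊ : ℝ) := Nat.le_ceil _
  have hZ2 : (⌈A⌉₊ : ℝ) ≤ 2 * A := by
    have := (Nat.ceil_lt_add_one (by linarith : 0 ≤ A)).le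
    linarith
  have hY1 : Real.exp e ≤ (⌈Real.exp e⌉₊ : ℝ) := Nat.le_ceil _
  have hYup : ((⌈Real.exp e⌉₊ + 1 : ℕ) : ℝ) ≤ 3 * Real.exp e := by
    have h1 := (Nat.ceil_lt_add_one (Real.exp_pos e).le).le
    have h2 : 1 ≤ Real.exp e := Real.one_le_exp (by linarith)
    push_cast
    linarith
  have hlog3 : Real.log 3 ≤ 2 := by
    rw [Real.log_le_iff_le_exp (by norm_num)]
    have := Real.add_one_le_exp (2 : ℝ)
    linarith
  have hYpos : (0 : ℝ) < ((⌈Real.exp e⌉₊ + 1 : ℕ) : ℝ) := by positivity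
  have hlogY : Real.log ((⌈Real.exp e⌉₊ + 1 : ℕ) : ℝ) ≤ 2 + e := by
    calc Real.log ((⌈Real.exp e⌉₊ + 1 : ℕ) : ℝ) ≤ Real.log (3 * Real.exp e) :=
          Real.log_le_log hYpos hYup
      _ = Real.log 3 + e := by rw [Real.log_mul (by norm_num) (Real.exp_pos e).ne', Real.log_exp]
      _ ≤ 2 + e := by linarith
  have hlogL : 0 ≤ Real.log L := Real.log_nonneg hL1
  refine ⟨hX9', hL, hbig, he, by rw [hA]; exact hZ1, ?_, ?_, ?_, hlogY, ?_, ?_, ?_, ?_, ?_⟩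
  · have : (2 : ℝ) ≤ (⌈A⌉₊ : ℝ) := by linarith
    exact_mod_cast this
  · have h1 : (⌈A⌉₊ : ℝ) ≤ ((⌈Real.exp e⌉₊ + 1 : ℕ) : ℝ) := by
      calc (⌈A⌉₊ : ℝ) ≤ 2 * A := hZ2
        _ ≤ L * A := mul_le_mul_of_nonneg_right (by linarith) (by linarith)
        _ ≤ Real.exp e := hLA
        _ ≤ _ := by push_cast; linarith
    exact_mod_cast h1
  · push_cast
    linarith
  · have heL : 2 * n * (2 + e) ≤ L := by
      have h1 : e ≤ L ^ ((1 : ℝ) / 2) := by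
        rw [he]
        exact Real.rpow_le_rpow_of_exponent_le hL1 hη1
      rw [← Real.sqrt_eq_rpow] at h1
      have h6 : 6 * (n : ℝ) ≤ Real.sqrt L := by
        apply Real.le_sqrt_of_sq_le
        rw [mul_pow]
        linarith
      have h7 : Real.sqrt L * Real.sqrt L = L := Real.mul_self_sqrt hL0.le
      have h8 : 1 ≤ Real.sqrt L := by linarith
      calc 2 * (n : ℝ) * (2 + e) ≤ 2 * n * (2 * Real.sqrt L + Real.sqrt L) := by
            gcongr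
            linarith
        _ = 6 * n * Real.sqrt L := by ring
        _ ≤ Real.sqrt L * Real.sqrt L := by gcongr
        _ = L := h7
    obtain ⟨Y, hY⟩ : ∃ Y, ⌈Real.exp e⌉₊ + 1 = Y := ⟨_, rfl⟩
    rw [hY] at hlogY hYpos ⊢
    have h1 : ((Y : ℝ) ^ n) ^ 2 ≤ X := by
      calc ((Y : ℝ) ^ n) ^ 2 = Real.exp (((n * 2 : ℕ) : ℝ) * Real.log Y) := by
            rw [Real.exp_nat_mul, Real.exp_log hYpos, ← pow_mul]
        _ ≤ Real.exp L := by
            apply Real.exp_le_exp.2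
            push_cast
            calc (n : ℝ) * 2 * Real.log Y ≤ n * 2 * (2 + e) := by gcongr
              _ = 2 * n * (2 + e) := by ring
              _ ≤ L := heL
        _ = X := by rw [← hL]; exact Real.exp_log hXpos
    exact_mod_cast h1
  · have h1 : ((⌊4 * n * Real.log L⌋₊ : ℕ) : ℝ) ≤ 4 * n * Real.log L := Nat.floor_le (by positivity)
    have h2 : 4 * (n : ℝ) ≤ (KK n : ℝ) := by
      have : 4 * n ≤ KK n := by
        unfold KK
        have : 4 * n ≤ 32 * (n + 2) * n := Nat.mul_le_mul_right _ (by omega)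
        omega
      exact_mod_cast this
    calc ((⌊4 * n * Real.log L⌋₊ : ℕ) : ℝ) ≤ 4 * n * Real.log L := h1
      _ ≤ KK n * Real.log L := by gcongr
  · exact (Nat.lt_floor_add_one _).le
  · have h120 : 120 * 2 ^ n ≤ L ^ (n + 10) := by
      calc (120 * 2 ^ n : ℝ) ≤ 2 ^ 10 * 2 ^ n := by
            have : (0 : ℝ) < 2 ^ n := by positivity
            nlinarith
        _ = 2 ^ (n + 10) := by rw [pow_add]; ring
        _ ≤ L ^ (n + 10) := by gcongr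
    have hA0 : 0 ≤ A := by linarith
    calc 120 * (⌈A⌉₊ : ℝ) ^ n ≤ 120 * (2 * A) ^ n := by gcongr
      _ = (120 * 2 ^ n) * A ^ n := by
          rw [mul_pow]
          ring
      _ ≤ L ^ (n + 10) * A ^ n := by gcongr
      _ = L ^ (KK n) := by
          rw [← hA, ← pow_mul, ← pow_mul, ← pow_add]
          congr 1
          unfold KK
          ring
      _ = L ^ ((KK n : ℕ) : ℝ) := (Real.rpow_natCast _ _).symm
  · calc L ^ (n + 1) ≤ L ^ (KK n) := by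
          apply pow_le_pow_right₀ hL1
          unfold KK
          omega
      _ = L ^ ((KK n : ℕ) : ℝ) := (Real.rpow_natCast _ _).symm

section general

variable {ι : Type*} [Fintype ι] [DecidableEq ι]

lemma T1 (w : Wt ι) : ∃ C : ℝ, 0 < C ∧ ∀ (X : ℕ) (L e K : ℝ) (Z Y J0 : ℕ),
    Par (Fintype.card ι) w.N X L e K Z Y J0 →
    |∑ D ∈ TX ι X, w.g D - ∑ D ∈ TX ι X, w.g D * NQ Z (allP w.P) D| ≤ C * X * L⁻¹ := by
  obtain ⟨C1, hC1, hS1⟩ := S1 (ι := ι)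
  obtain ⟨P, hP⟩ : ∃ P : ℝ, ((allP w.P).card : ℝ) = P := ⟨_, rfl⟩
  have hP0 : 0 ≤ P := by rw [← hP]; exact Nat.cast_nonneg _
  set n := Fintype.card ι with hn
  refine ⟨P * (C1 * 2 ^ (n + 1)) + 1, by positivity, ?_⟩
  intro X L e K Z Y J0 hp
  have hbig := hp.big
  have hL0 : 0 < L := by linarith
  have hX9 := hp.hX
  have hT1 := hS1 w X Z (allP w.P) (by
    intro q hq
    unfold allP at hq
    exact (Finset.mem_filter.1 hq).2) (by omega) (by have := hp.Z2; omega)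
  rw [hp.hL, hP] at hT1
  have hZ32 : (Z : ℝ) ^ (-(1 : ℝ) / 32) ≤ (L ^ (n + 2))⁻¹ := by
    calc (Z : ℝ) ^ (-(1 : ℝ) / 32) ≤ ((L ^ (n + 2)) ^ 32) ^ (-(1 : ℝ) / 32) :=
          Real.rpow_le_rpow_of_nonpos (by positivity) hp.Z1 (by norm_num)
      _ = (L ^ (n + 2))⁻¹ := by
          rw [← Real.rpow_natCast (L ^ (n + 2)) 32, ← Real.rpow_mul (by positivity)]
          norm_num
          rw [Real.rpow_neg_one]
  have hL1L : (1 + L) ≤ 2 * L := by linarith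
  refine hT1.trans ?_
  calc P * (C1 * X * (1 + L) ^ (n + 1) * (Z : ℝ) ^ (-(1 : ℝ) / 32))
      ≤ P * (C1 * X * (2 * L) ^ (n + 1) * (L ^ (n + 2))⁻¹) := by gcongr
    _ = P * (C1 * 2 ^ (n + 1)) * X * L⁻¹ := by
        rw [mul_pow, pow_succ L (n + 1)]
        field_simp
    _ ≤ (P * (C1 * 2 ^ (n + 1)) + 1) * X * L⁻¹ := by
        have : 0 ≤ L⁻¹ := by positivity
        gcongr
        linarith

lemma T2 [Nonempty ι] (w : Wt ι) (hN2 : 2 ≤ w.N) (K : ℝ) : ∃ C : ℝ, 0 < C ∧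
    ∀ (X : ℕ) (L e : ℝ) (Z Y J0 : ℕ), Par (Fintype.card ι) w.N X L e K Z Y J0 →
    CharB X Y J0 (L ^ K) (L ^ K) →
    |∑ D ∈ TX ι X, w.g D * NQ Z (allP w.P) D
        - ∑ D ∈ TX ι X, w.g D * (NQ Z (allP w.P) D * MV w.P Y univ D)| ≤ C * X * L⁻¹ := by
  obtain ⟨C2, hC2, htail⟩ := tail_le (ι := ι) w.hN
  set n := Fintype.card ι with hn
  have hn1 : 1 ≤ n := by rw [hn]; exact Fintype.card_pos
  refine ⟨n * (4 * 2 ^ n + 2 * C2), by positivity, ?_⟩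
  intro X L e Z Y J0 hp hcb
  have hbig := hp.big
  have hL0 : 0 < L := by linarith
  have hL1 : 1 ≤ L := by linarith
  have hX9 := hp.hX
  have hT2 := S2 w hN2 X Y Z J0 (L ^ K) (L ^ K)
    (by positivity) (hp.Z2.trans hp.ZY) (by have := hp.Z2; omega) hp.ZY hp.W hcb univ
  rw [Finset.card_univ, hp.hL] at hT2
  have htl : tailS ι w.N X J0 ≤ 2 * C2 * X * L⁻¹ := by
    have h1 := htail X J0 (by omega)
    rw [hp.hL] at h1
    unfold tailS
    refine h1.trans ?_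
    have h2 : ((1 : ℝ) / 2) ^ J0 ≤ 2 * (L ^ (2 * n))⁻¹ := by
      have hlt := hp.J2
      have hl2 : (1 : ℝ) / 2 ≤ Real.log 2 := by have := Real.log_two_gt_d9; linarith
      have hlogL : 0 ≤ Real.log L := Real.log_nonneg hL1
      have h3 : ((1 : ℝ) / 2) ^ J0 = Real.exp (-(J0 * Real.log 2)) := by
        rw [Real.exp_neg, mul_comm, Real.exp_mul, Real.exp_log (by norm_num), Real.rpow_natCast,
          one_div, inv_pow]
      have h4 : 2 * (L ^ (2 * n))⁻¹ = Real.exp (Real.log 2 - (2 * n : ℕ) * Real.log L) := by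
        rw [Real.exp_sub, Real.exp_log (by norm_num), mul_comm ((2 * n : ℕ) : ℝ), Real.exp_mul,
          Real.exp_log hL0, Real.rpow_natCast]
        rfl
      rw [h3, h4]
      apply Real.exp_le_exp.2
      push_cast
      have h5 : 0 ≤ (n : ℝ) * Real.log L := by positivity
      nlinarith
    have h7 : L ^ (2 * (n : ℝ) - 1) = L ^ (2 * n) * L⁻¹ := by
      rw [Real.rpow_sub hL0, Real.rpow_one, div_eq_mul_inv]
      congr 1
      rw [← Real.rpow_natCast]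
      norm_num
    calc C2 * X * L ^ (2 * (n : ℝ) - 1) * (1 / 2) ^ J0
        ≤ C2 * X * L ^ (2 * (n : ℝ) - 1) * (2 * (L ^ (2 * n))⁻¹) := by gcongr
      _ = 2 * C2 * X * L⁻¹ := by
          rw [h7]
          field_simp
  refine hT2.trans ?_
  have h1 : 4 * X / L ^ K * (1 + L) ^ n ≤ 4 * 2 ^ n * X * L⁻¹ := by
    have hM := hp.M
    calc 4 * X / L ^ K * (1 + L) ^ n ≤ 4 * X / L ^ (n + 1) * (2 * L) ^ n := by
          have : 1 + L ≤ 2 * L := by linarith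
          gcongr
      _ = 4 * 2 ^ n * X * L⁻¹ := by
          rw [mul_pow, pow_succ L n]
          field_simp
  calc (n : ℝ) * (4 * X / L ^ K * (1 + L) ^ n + tailS ι w.N X J0)
      ≤ n * (4 * 2 ^ n * X * L⁻¹ + 2 * C2 * X * L⁻¹) := by gcongr
    _ = n * (4 * 2 ^ n + 2 * C2) * X * L⁻¹ := by ring

lemma T3 [Nonempty ι] (w : Wt ι)
    (hf : ∀ (Z Y : ℕ) (D : ι → ℕ), 2 ≤ Z → Z ≤ Y → (∀ u, 1 ≤ D u) →
      w.g D * (NQ Z (allP w.P) D * MV w.P Y univ D) ≠ 0 → (Lg Y D).card < w.N) :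
    ∃ C : ℝ, 0 < C ∧ ∀ (X : ℕ) (L e K : ℝ) (Z Y J0 : ℕ), Par (Fintype.card ι) w.N X L e K Z Y J0 →
    |∑ D ∈ TX ι X, w.g D * (NQ Z (allP w.P) D * MV w.P Y univ D)|
      ≤ C * X * L ^ (-((1 : ℝ) / (2 * w.N))) := by
  obtain ⟨C3, hC3, hfew⟩ := few_le (ι := ι) w.hN
  set n := Fintype.card ι with hn
  have hn1 : 1 ≤ n := by rw [hn]; exact Fintype.card_pos
  have hnR : (1 : ℝ) ≤ n := by exact_mod_cast hn1
  have hNR : (1 : ℝ) ≤ w.N := by exact_mod_cast w.hN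
  refine ⟨C3 * 4 ^ n, by positivity, ?_⟩
  intro X L e K Z Y J0 hp
  have hbig := hp.big
  have hL0 : 0 < L := by linarith
  have hL1 : 1 ≤ L := by linarith
  have hX9 := hp.hX
  have hY2 : 2 ≤ Y := hp.Z2.trans hp.ZY
  have hfw := hfew X Y hX9 (by omega) hp.YX
  rw [hp.hL] at hfw
  have hT3 : |∑ D ∈ TX ι X, w.g D * (NQ Z (allP w.P) D * MV w.P Y univ D)|
      ≤ ∑ D ∈ (TX ι X).filter (fun D => (Lg Y D).card < w.N), sqh (qN w.N) D := by
    refine (Finset.abs_sum_le_sum_abs _ _).trans ?_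
    rw [Finset.sum_filter]
    apply Finset.sum_le_sum
    intro D hD
    rw [mem_TX] at hD
    by_cases h : (Lg Y D).card < w.N
    · rw [if_pos h, abs_mul]
      have h3 : |NQ Z (allP w.P) D * MV w.P Y univ D| ≤ 1 := by
        rcases NQ_cases Z (allP w.P) D with h | h <;>
          rcases MV_cases w.P Y univ D with h' | h' <;> rw [h, h'] <;> simp
      calc |w.g D| * |NQ Z (allP w.P) D * MV w.P Y univ D| ≤ sqh (qN w.N) D * 1 :=
            mul_le_mul (g_abs w D) h3 (abs_nonneg _) (sqh_nonneg _ (qN_nonneg _) _)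
        _ = _ := mul_one _
    · rw [if_neg h]
      have : w.g D * (NQ Z (allP w.P) D * MV w.P Y univ D) = 0 := by
        by_contra hc
        exact h (hf Z Y D hp.Z2 hp.ZY hD.1 hc)
      rw [this, abs_zero]
  refine hT3.trans (hfw.trans ?_)
  have he1 : 1 ≤ e := by rw [hp.he]; exact Real.one_le_rpow hL1 (by positivity)
  have hY1' : (1 : ℝ) ≤ Y := by exact_mod_cast (by omega : 1 ≤ Y)
  have h1 : (1 + Real.log Y) ^ n ≤ 4 ^ n * L ^ ((1 : ℝ) / (2 * w.N)) := by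
    have h2 : 0 ≤ Real.log Y := Real.log_nonneg hY1'
    have h3 := hp.Yup
    calc (1 + Real.log Y) ^ n ≤ (4 * e) ^ n := by
          gcongr
          linarith
      _ = 4 ^ n * L ^ ((1 : ℝ) / (2 * w.N)) := by
          rw [mul_pow, hp.he, ← Real.rpow_natCast (L ^ _), ← Real.rpow_mul hL0.le]
          congr 2
          field_simp
  have h2 : L ^ (-(1 : ℝ) / w.N) * L ^ ((1 : ℝ) / (2 * w.N)) = L ^ (-((1 : ℝ) / (2 * w.N))) := by
    rw [← Real.rpow_add hL0]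
    congr 1
    field_simp
    ring
  calc C3 * X * L ^ (-(1 : ℝ) / w.N) * (1 + Real.log Y) ^ n
      ≤ C3 * X * L ^ (-(1 : ℝ) / w.N) * (4 ^ n * L ^ ((1 : ℝ) / (2 * w.N))) := by gcongr
    _ = (C3 * 4 ^ n) * X * (L ^ (-(1 : ℝ) / w.N) * L ^ ((1 : ℝ) / (2 * w.N))) := by ring
    _ = _ := by rw [h2]

/-- the error estimate -/
theorem err [Nonempty ι] (w : Wt ι) (hN2 : 2 ≤ w.N)
    (hf : ∀ (Z Y : ℕ) (D : ι → ℕ), 2 ≤ Z → Z ≤ Y → (∀ u, 1 ≤ D u) →
      w.g D * (NQ Z (allP w.P) D * MV w.P Y univ D) ≠ 0 → (Lg Y D).card < w.N) :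
    Sm (fun X => ∑ D ∈ TX ι X, w.g D) := by
  obtain ⟨C1, hC1, h1⟩ := T1 w
  obtain ⟨C2, hC2, h2⟩ := T2 w hN2 (KK (Fintype.card ι))
  obtain ⟨C3, hC3, h3⟩ := T3 w hf
  have hn1 : 1 ≤ Fintype.card ι := Fintype.card_pos
  have hnR : (1 : ℝ) ≤ Fintype.card ι := by exact_mod_cast hn1
  have hNR : (1 : ℝ) ≤ w.N := by exact_mod_cast w.hN
  obtain ⟨X₁, hchar⟩ := charB sw (KK (Fintype.card ι)) (1 / (2 * w.N * Fintype.card ι))
    (by exact_mod_cast (by unfold KK; omega : 1 ≤ KK (Fintype.card ι))) (by positivity)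
  obtain ⟨X₂, hpar⟩ := par_ex hn1 w.hN
  refine Sm.of_rate (C := C1 + C2 + C3) (δ := 1 / (2 * w.N)) (X₁ := max X₁ X₂) (by positivity) ?_
  intro X hX
  obtain ⟨L, e, Z, Y, J0, hp⟩ := hpar X ((le_max_right _ _).trans hX)
  have hX9 := hp.hX
  have hL0 : 1 ≤ L := by have := hp.big; linarith
  have hcb := hchar X Y J0 ((le_max_left _ _).trans hX) (by omega)
    (by rw [hp.hL, ← hp.he]; exact hp.Ylow) (by rw [hp.hL]; exact hp.J1)
  rw [hp.hL] at hcb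
  have a1 := abs_le.1 (h1 X L e _ Z Y J0 hp)
  have a2 := abs_le.1 (h2 X L e Z Y J0 hp hcb)
  have a3 := abs_le.1 (h3 X L e _ Z Y J0 hp)
  rw [hp.hL, abs_le]
  have hinv : L⁻¹ ≤ L ^ (-((1 : ℝ) / (2 * w.N))) := by
    rw [← Real.rpow_neg_one]
    apply Real.rpow_le_rpow_of_exponent_le hL0
    have : (1 : ℝ) / (2 * w.N) ≤ 1 := by
      rw [div_le_one (by positivity)]
      linarith
    linarith
  obtain ⟨b, hb⟩ : ∃ b, X * L ^ (-((1 : ℝ) / (2 * w.N))) = b := ⟨_, rfl⟩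
  have hXL : X * L⁻¹ ≤ b := by
    rw [← hb]
    gcongr
  have e1 : C1 * X * L⁻¹ ≤ C1 * b := by rw [mul_assoc]; gcongr
  have e2 : C2 * X * L⁻¹ ≤ C2 * b := by rw [mul_assoc]; gcongr
  have e3 : C3 * X * L ^ (-((1 : ℝ) / (2 * w.N))) = C3 * b := by rw [← hb]; ring
  have e4 : (C1 + C2 + C3) * X * L ^ (-((1 : ℝ) / (2 * w.N))) = (C1 + C2 + C3) * b := by
    rw [← hb]; ring
  rw [e3] at a3
  rw [e4]
  constructor
  · linarith [a1.1, a2.1, a3.1]
  · linarith [a1.2, a2.2, a3.2]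

end general

end Vale.Agent.P017.H509
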