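import Vale.Agent.P017.H509.A6
import Vale.Agent.P017.H260.T1def

/-!
The sum over the tuples with a given support: the supports which contribute nothing.
-/

namespace Vale.Agent.P017.H509

open Finset Function
open Vale.Agent.P017.H260 (tupS symb meanC)
open Vale.Agent.P014.FM (TX mem_TX one_le_prod MV Cv allP NQ Lg)

lemma card_G : Fintype.card G = 16 := by simp

lemma dotG_ne {g : G} (hg : g ≠ 0) : ∃ b : G, dotG b g = 1 := by
  revert g; decide

lemma add_self_G (g : G) : g + g = 0 := by revert g; decide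

lemma add_eq_zero_G {g h : G} : g + h = 0 ↔ g = h := by
  constructor
  · intro e
    calc g = g + (h + h) := by rw [add_self_G, add_zero]
      _ = (g + h) + h := by abel
      _ = h := by rw [e, zero_add]
  · rintro rfl
    exact add_self_G g

/-- orthogonality -/
lemma orth (g : G) : ∑ b : G, sg (dotG b g) = if g = 0 then 16 else 0 := by
  split_ifs with hg
  · subst hg
    simp only [dotG_zero_right, sg_zero]
    rw [Finset.sum_const, Finset.card_univ, card_G]
    norm_num
  · obtain ⟨b₀, hb⟩ := dotG_ne hg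
    have h1 : ∑ b : G, sg (dotG b g) = ∑ b : G, sg (dotG (b + b₀) g) :=
      (Equiv.sum_comp (Equiv.addRight b₀) (fun b => sg (dotG b g))).symm
    have h2 : ∑ b : G, sg (dotG (b + b₀) g) = - ∑ b : G, sg (dotG b g) := by
      rw [← Finset.sum_neg_distrib]
      refine Finset.sum_congr rfl fun b _ => ?_
      rw [dotG_add_left, sg_add, hb, sg_one]
      ring
    linarith

section general

variable {ι : Type*} [Fintype ι] [DecidableEq ι]

/-- the characters of `ι → G` -/
noncomputable def chi (β h : ι → G) : ℝ := ∏ u, sg (dotG (β u) (h u))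

omit [DecidableEq ι] in
lemma chi_mul (β h h' : ι → G) : chi β (h + h') = chi β h * chi β h' := by
  unfold chi
  rw [← Finset.prod_mul_distrib]
  refine Finset.prod_congr rfl fun u _ => ?_
  rw [Pi.add_apply, dotG_add_right, sg_add]

omit [DecidableEq ι] in
lemma chi_abs (β h : ι → G) : |chi β h| = 1 := by
  unfold chi
  rw [Finset.abs_prod]
  exact Finset.prod_eq_one fun u _ => sg_abs _

/-- the allowed characters for the support `T` -/
def tset (T : Finset ι) (u : ι) : Finset G := if u ∈ T then univ else {0}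

lemma sum_tset (T : Finset ι) (u : ι) (g : G) :
    ∑ b ∈ tset T u, sg (dotG b g) = if u ∈ T then (if g = 0 then 16 else 0) else 1 := by
  unfold tset
  by_cases hu : u ∈ T
  · rw [if_pos hu, if_pos hu, orth]
  · rw [if_neg hu, if_neg hu, Finset.sum_singleton, dotG_zero_left, sg_zero]

lemma sum_chi (T : Finset ι) (h : ι → G) :
    ∑ β ∈ Fintype.piFinset (tset T), chi β h = if ∀ u ∈ T, h u = 0 then 16 ^ T.card else 0 := by
  have h1 := Finset.prod_univ_sum (tset T) (fun u b => sg (dotG b (h u)))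
  have h2 : ∑ β ∈ Fintype.piFinset (tset T), chi β h =
      ∏ u, (if u ∈ T then (if h u = 0 then (16 : ℝ) else 0) else 1) := by
    unfold chi
    rw [← h1]
    exact Finset.prod_congr rfl fun u _ => sum_tset T u (h u)
  rw [h2, Finset.prod_ite_mem, Finset.univ_inter]
  split_ifs with hz
  · rw [Finset.prod_congr rfl (fun u hu => if_pos (hz u hu)), Finset.prod_const]
  · push Not at hz
    obtain ⟨u, hu, hu0⟩ := hz
    exact Finset.prod_eq_zero hu (if_neg hu0)

/-- the indicator of a tuple of classes -/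
lemma ind_chi (T : Finset ι) (h h' : ι → G) (hh : ∀ u, u ∉ T → h u = 0)
    (hh' : ∀ u, u ∉ T → h' u = 0) :
    (if h' = h then (1 : ℝ) else 0) =
      (16 ^ T.card)⁻¹ * ∑ β ∈ Fintype.piFinset (tset T), chi β h * chi β h' := by
  have h1 : ∑ β ∈ Fintype.piFinset (tset T), chi β h * chi β h' =
      ∑ β ∈ Fintype.piFinset (tset T), chi β (h + h') :=
    Finset.sum_congr rfl fun β _ => (chi_mul β h h').symm
  rw [h1, sum_chi]
  have h2 : (∀ u ∈ T, (h + h') u = 0) ↔ h' = h := by
    constructor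
    · intro h3
      funext u
      by_cases hu : u ∈ T
      · exact (add_eq_zero_G.1 (h3 u hu)).symm
      · rw [hh u hu, hh' u hu]
    · rintro rfl u _
      exact add_self_G _
  by_cases h3 : h' = h
  · rw [if_pos h3, if_pos (h2.2 h3), inv_mul_cancel₀ (by positivity)]
  · rw [if_neg h3, if_neg (fun h4 => h3 (h2.1 h4)), mul_zero]

/-- the weight with support `T` and characters `β` -/
noncomputable def WT (N : ℕ) (hN : 1 ≤ N) (T : Finset ι) (β : ι → G) (P : ι → ι → ZMod 2)
    (hP : ∀ u, P u u = 0) : Wt ι where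
  N := N
  hN := hN
  b := β
  th u x := if u ∈ T then (if 2 ≤ x then 1 else 0) else (if x ≤ 1 then 1 else 0)
  th_abs u x := by
    split_ifs <;> simp
  th_const u x hx := by
    have h1 : ¬ x ≤ 1 := by omega
    have h2 : ¬ (2 : ℕ) ≤ 1 := by omega
    split_ifs <;> first | rfl | (exfalso; omega)
  P := P
  P_self := hP

/-- the condition on the support -/
def isS (T : Finset ι) (D : ι → ℕ) : Prop := ∀ u, D u ≠ 1 ↔ u ∈ T

lemma th_prod (T : Finset ι) (D : ι → ℕ) (hD : ∀ u, 1 ≤ D u) [Decidable (isS T D)] :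
    ∏ u, (if u ∈ T then (if 2 ≤ D u then (1 : ℝ) else 0) else (if D u ≤ 1 then 1 else 0)) =
      if isS T D then 1 else 0 := by
  by_cases hS : isS T D
  · rw [if_pos hS]
    refine Finset.prod_eq_one fun u _ => ?_
    have h1 := hS u
    have h2 := hD u
    by_cases hu : u ∈ T
    · rw [if_pos hu, if_pos]
      have := h1.2 hu
      omega
    · rw [if_neg hu, if_pos]
      by_contra h3
      exact hu (h1.1 (by omega))
  · rw [if_neg hS]
    unfold isS at hS
    push Not at hS
    obtain ⟨u, hu⟩ := hS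
    refine Finset.prod_eq_zero (mem_univ u) ?_
    have h2 := hD u
    rcases hu with ⟨h3, h4⟩ | ⟨h3, h4⟩
    · rw [if_neg h4, if_neg (by omega)]
    · rw [if_pos h4, if_neg (by omega)]

open Classical in
/-- the summand -/
lemma WT_g (N : ℕ) (hN : 1 ≤ N) (T : Finset ι) (β : ι → G) (P : ι → ι → ZMod 2)
    (hP : ∀ u, P u u = 0) (D : ι → ℕ) (hD : ∀ u, 1 ≤ D u) :
    (WT N hN T β P hP).g D =
      if Squarefree (∏ u, D u) ∧ (∏ u, D u).Coprime 30 ∧ isS T D then
        qN N (∏ u, D u) * (chi β (fun u => cl (D u)) * symb P D) else 0 := by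
  unfold Wt.g Wt.wt Wt.f
  rw [Finset.prod_mul_distrib]
  have h1 : ∏ u, (WT N hN T β P hP).th u (D u) = if isS T D then 1 else 0 := th_prod T D hD
  rw [h1]
  by_cases hsq : Squarefree (∏ u, D u) ∧ (∏ u, D u).Coprime 30
  · have hc : ∏ u, chR ((WT N hN T β P hP).b u) (D u) = chi β (fun u => cl (D u)) := by
      unfold chi
      refine Finset.prod_congr rfl fun u _ => ?_
      have hcu : (D u).Coprime 30 :=
        Nat.Coprime.coprime_dvd_left (Finset.dvd_prod_of_mem _ (Finset.mem_univ u)) hsq.2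
      rw [chR_cop hcu]
      rfl
    rw [hc]
    have hpw : pw (WT N hN T β P hP).N (∏ u, D u) = qN N (∏ u, D u) := by
      unfold pw qN
      rw [if_pos hsq]
      rfl
    rw [hpw]
    by_cases hS : isS T D
    · rw [if_pos hS, if_pos ⟨hsq.1, hsq.2, hS⟩, mul_one]
      rfl
    · rw [if_neg hS, if_neg (fun h => hS h.2.2)]
      ring
  · have hpw : pw (WT N hN T β P hP).N (∏ u, D u) = 0 := by
      unfold pw
      rw [if_neg hsq]
    rw [hpw, zero_mul, if_neg]
    exact fun h => hsq ⟨h.1, h.2.1⟩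

/-- the sum over the family -/
lemma sum_Fam (T : Finset ι) (N : ℕ) (c : G) (X : ℕ) (F : (ι → ℕ) → ℝ)
    [DecidablePred fun D : ι → ℕ => Squarefree (∏ u, D u) ∧ (∏ u, D u).Coprime 30 ∧ isS T D ∧
      ∑ u, cl (D u) = c] :
    ∑ m ∈ Fam c X, (1 / (N : ℝ)) ^ m.primeFactors.card * ∑ D ∈ tupS T m, F D =
      ∑ D ∈ TX ι X, if Squarefree (∏ u, D u) ∧ (∏ u, D u).Coprime 30 ∧ isS T D ∧
        ∑ u, cl (D u) = c then qN N (∏ u, D u) * F D else 0 := by
  classical
  rw [← Finset.sum_filter]
  have hcl : ∀ D : ι → ℕ, (∏ u, D u).Coprime 30 → cl (∏ u, D u) = ∑ u, cl (D u) := by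
    intro D hD
    exact cl_prod univ D fun u _ =>
      Nat.Coprime.coprime_dvd_left (Finset.dvd_prod_of_mem _ (Finset.mem_univ u)) hD
  have h1 : ∀ D ∈ (TX ι X).filter (fun D => Squarefree (∏ u, D u) ∧ (∏ u, D u).Coprime 30 ∧
      isS T D ∧ ∑ u, cl (D u) = c), ∏ u, D u ∈ Fam c X := by
    intro D hD
    rw [Finset.mem_filter, mem_TX] at hD
    unfold Fam
    rw [Finset.mem_filter, Finset.mem_range]
    exact ⟨by omega, hD.2.1, hD.2.2.1, by rw [hcl D hD.2.2.1]; exact hD.2.2.2.2⟩
  rw [← Finset.sum_fiberwise_of_maps_to h1]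
  refine Finset.sum_congr rfl fun n hn => ?_
  unfold Fam at hn
  rw [Finset.mem_filter, Finset.mem_range] at hn
  obtain ⟨hnX, hnF⟩ := hn
  have hn0 : n ≠ 0 := hnF.1.ne_zero
  rw [Finset.mul_sum]
  refine Finset.sum_congr ?_ ?_
  · ext D
    unfold tupS
    rw [Finset.mem_filter, Finset.mem_filter, Finset.mem_filter, mem_TX, Fintype.mem_piFinset]
    constructor
    · rintro ⟨h3, h4, h5⟩
      have h6 : ∀ u, 1 ≤ D u := fun u => Nat.pos_of_mem_divisors (h3 u)
      rw [h4]
      refine ⟨⟨⟨h6, by omega⟩, hnF.1, hnF.2.1, h5, ?_⟩, rfl⟩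
      rw [← hcl D (by rw [h4]; exact hnF.2.1), h4]
      exact hnF.2.2
    · rintro ⟨⟨⟨h3, _⟩, _, _, h5, _⟩, h4⟩
      refine ⟨fun u => ?_, h4, h5⟩
      rw [Nat.mem_divisors]
      refine ⟨?_, hn0⟩
      rw [← h4]
      exact Finset.dvd_prod_of_mem _ (Finset.mem_univ u)
  · intro D hD
    rw [Finset.mem_filter] at hD
    rw [hD.2]
    rfl

/-- the condition on few large coordinates -/
lemma few_cond {N : ℕ} (hN1 : 1 ≤ N) (T : Finset ι) (β : ι → G) (P : ι → ι → ZMod 2)
    (hP : ∀ u, P u u = 0)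
    (hN : ∀ U : Finset ι, (∀ u ∈ U, ∀ v ∈ U, P u v = P v u) → U.card ≤ N)
    (hT : ¬ (T.card = N ∧ ∀ u ∈ T, ∀ v ∈ T, P u v = P v u)) (Z Y : ℕ) (D : ι → ℕ) (hZ : 2 ≤ Z)
    (hZY : Z ≤ Y) (hD : ∀ u, 1 ≤ D u)
    (h : (WT N hN1 T β P hP).g D *
      (NQ Z (allP (WT N hN1 T β P hP).P) D * MV (WT N hN1 T β P hP).P Y univ D) ≠ 0) :
    (Lg Y D).card < N := by
  classical
  have hg := left_ne_zero_of_mul h
  have hMV : MV P Y univ D ≠ 0 := right_ne_zero_of_mul (right_ne_zero_of_mul h)
  rw [WT_g N hN1 T β P hP D hD] at hg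
  have hS : isS T D := by
    by_contra hc
    exact hg (if_neg fun h => hc h.2.2)
  have hC : ∀ v, ¬ (Y ≤ D v ∧ ∃ w, P v w ≠ P w v ∧ 1 < D w) := by
    intro v hv
    apply hMV
    unfold MV
    apply Finset.prod_eq_zero (Finset.mem_univ v)
    unfold Cv
    rw [if_pos hv]
    ring
  have hL : ∀ u, u ∈ Lg Y D ↔ Y ≤ D u := by
    intro u
    unfold Lg
    rw [Finset.mem_filter]
    exact ⟨fun h => h.2, fun h => ⟨Finset.mem_univ _, h⟩⟩
  have hLT : ∀ u ∈ Lg Y D, u ∈ T := by
    intro u hu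
    have := (hL u).1 hu
    exact (hS u).1 (by omega)
  have hlink : ∀ u ∈ Lg Y D, ∀ v ∈ T, P u v = P v u := by
    intro u hu v hv
    by_contra hne
    have h1 := (hS v).2 hv
    have h2 := hD v
    exact hC u ⟨(hL u).1 hu, v, hne, by omega⟩
  by_contra hcon
  push Not at hcon
  have hun : ∀ u ∈ Lg Y D, ∀ v ∈ Lg Y D, P u v = P v u := fun u hu v hv => hlink u hu v (hLT v hv)
  have h1 := hN _ hun
  have h2 : (Lg Y D).card = N := le_antisymm h1 hcon
  have h3 : T = Lg Y D := by
    apply Finset.Subset.antisymm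
    · intro v hv
      by_contra hvL
      have h4 := hN (insert v (Lg Y D)) (by
        intro a ha b hb
        rw [Finset.mem_insert] at ha hb
        rcases ha with rfl | ha <;> rcases hb with rfl | hb
        · rfl
        · exact (hlink b hb a hv).symm
        · exact hlink a ha b hv
        · exact hun a ha b hb)
      rw [Finset.card_insert_of_notMem hvL] at h4
      omega
    · exact hLT
  exact hT ⟨by rw [h3]; exact h2, by rw [h3]; exact hun⟩

/-- **first part of the analytic input** -/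
theorem T1a [Nonempty ι] (P : ι → ι → ZMod 2) (hP0 : ∀ u, P u u = 0) (N : ℕ) (hN2 : 2 ≤ N)
    (hN : ∀ U : Finset ι, (∀ u ∈ U, ∀ v ∈ U, P u v = P v u) → U.card ≤ N)
    (T : Finset ι) (hT : ¬ (T.card = N ∧ ∀ u ∈ T, ∀ v ∈ T, P u v = P v u))
    (F : (ι → G) → ℝ) (c : G) (ε : ℝ) (hε : 0 < ε) :
    ∃ X₀ : ℕ, ∀ X ≥ X₀, |∑ m ∈ Fam c X, (1 / (N : ℝ)) ^ m.primeFactors.card *
      ∑ D ∈ tupS T m, F (fun u => cl (D u)) * symb P D| ≤ ε * X := by
  classical
  have hN1 : 1 ≤ N := by omega
  have hs : ∀ β : ι → G, Sm (fun X => ∑ D ∈ TX ι X, (WT N hN1 T β P hP0).g D) := fun β =>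
    err (WT N hN1 T β P hP0) hN2 (few_cond hN1 T β P hP0 hN hT)
  set S0 : Finset (ι → G) := univ.filter (fun h => (∀ u, u ∉ T → h u = 0) ∧ ∑ u, h u = c)
    with hS0
  have hmain : ∀ X, ∑ m ∈ Fam c X, (1 / (N : ℝ)) ^ m.primeFactors.card *
      ∑ D ∈ tupS T m, F (fun u => cl (D u)) * symb P D =
      ∑ h ∈ S0, ∑ β ∈ Fintype.piFinset (tset T),
        (F h * (16 ^ T.card)⁻¹ * chi β h) * ∑ D ∈ TX ι X, (WT N hN1 T β P hP0).g D := by
    intro X
    rw [sum_Fam T N c X]
    simp only [Finset.mul_sum]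
    rw [Finset.sum_congr rfl (fun h _ => Finset.sum_comm), Finset.sum_comm]
    refine Finset.sum_congr rfl fun D hD => ?_
    rw [mem_TX] at hD
    have hg := fun β => WT_g N hN1 T β P hP0 D hD.1
    simp only [hg]
    by_cases hA : Squarefree (∏ u, D u) ∧ (∏ u, D u).Coprime 30 ∧ isS T D
    · simp only [if_pos hA]
      have hsupp : ∀ u, u ∉ T → cl (D u) = 0 := by
        intro u hu
        have : D u = 1 := by
          by_contra hc
          exact hu ((hA.2.2 u).1 hc)
        rw [this, cl_one]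
      have hinner : ∀ h ∈ S0, ∑ β ∈ Fintype.piFinset (tset T),
          F h * (16 ^ T.card)⁻¹ * chi β h *
            (qN N (∏ u, D u) * (chi β (fun u => cl (D u)) * symb P D)) =
          (if (fun u => cl (D u)) = h then (1 : ℝ) else 0) *
            (F h * qN N (∏ u, D u) * symb P D) := by
        intro h hh
        rw [hS0, Finset.mem_filter] at hh
        rw [ind_chi T h (fun u => cl (D u)) hh.2.1 hsupp, Finset.mul_sum, Finset.sum_mul]
        refine Finset.sum_congr rfl fun β _ => ?_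
        ring
      rw [Finset.sum_congr rfl hinner]
      by_cases hc : ∑ u, cl (D u) = c
      · rw [if_pos ⟨hA.1, hA.2.1, hA.2.2, hc⟩]
        rw [Finset.sum_eq_single (fun u => cl (D u))]
        · rw [if_pos rfl]
          ring
        · intro h _ hne
          rw [if_neg (fun h' => hne h'.symm), zero_mul]
        · intro hni
          exact absurd (by rw [hS0, Finset.mem_filter]; exact ⟨mem_univ _, hsupp, hc⟩) hni
      · rw [if_neg (fun h => hc h.2.2.2)]
        symm
        apply Finset.sum_eq_zero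
        intro h hh
        rw [hS0, Finset.mem_filter] at hh
        rw [if_neg, zero_mul]
        rintro rfl
        exact hc hh.2.2
    · simp only [if_neg hA]
      rw [if_neg (fun h => hA ⟨h.1, h.2.1, h.2.2.1⟩)]
      simp
  have hsm : Sm (fun X => ∑ m ∈ Fam c X, (1 / (N : ℝ)) ^ m.primeFactors.card *
      ∑ D ∈ tupS T m, F (fun u => cl (D u)) * symb P D) := by
    simp only [hmain]
    exact Sm.sum _ fun h _ => Sm.sum _ fun β _ => (hs β).const_mul _
  exact hsm ε hε

end general

end Vale.Agent.P017.H509
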