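import Vale.Agent.P017.H509.A7

/-!
Factorisations of squarefree numbers, and mean values of real multiplicative functions.
-/

namespace Vale.Agent.P017.H509

open Finset Function
open Vale.Agent.P017.H260 (tupS symb meanC)
open Vale.Agent.P014.H687.FM (sqf mem_sqf fm2b mf mf_nonneg fm2_gen recip_le rec_bounded
  NPChar SW sw)

/-! ### Mean values -/

theorem fm2d {q : ℕ} {ψ : ℕ → ℝ} (hψ : NPChar q (fun n => (ψ n : ℂ)))
    (hval : ∀ n, ψ n = 1 ∨ ψ n = -1 ∨ (ψ n = 0 ∧ ¬ n.Coprime q)) {N : ℕ} (hN : 2 ≤ N) :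
    ∃ C : ℝ, 0 < C ∧ ∀ x : ℝ, 3 ≤ x → ∀ g : ℕ → ℝ, (∀ p, 0 ≤ g p) →
      (∀ p, p.Prime → g p ≤ 1) → (∀ p, p.Prime → ψ p = -1 → g p ≤ 1 - 2 / N) →
        ∑ n ∈ sqf ⌊x⌋₊, mf g n ≤ C * x * Real.log x ^ (-((1 : ℝ) / N)) := by
  obtain ⟨C, hC⟩ := rec_bounded sw hψ
  have hN' : (2 : ℝ) ≤ N := by exact_mod_cast hN
  have hN0 : (0 : ℝ) < N := by linarith
  have hNi : (1 : ℝ) / N ≤ 1 := by rw [div_le_one hN0]; linarith
  have hNi0 : (0 : ℝ) ≤ 1 / N := by positivity
  refine ⟨3 * Real.exp ((1 - 1 / N) * 21 + C / N + q), by positivity, fun x hx g h0 h1 h2 => ?_⟩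
  have hq1 := hψ.pos
  have hmain : ∑ p ∈ (Icc 1 ⌊x⌋₊).filter Nat.Prime, g p / p ≤
      (1 - 1 / N) * Real.log (Real.log x) + ((1 - 1 / N) * 21 + C / N + q) := by
    have e1 : ∀ p ∈ (Icc 1 ⌊x⌋₊).filter Nat.Prime, g p / p ≤
        (1 - 1 / N) * (1 / (p : ℝ)) + 1 / N * (ψ p / p) + (if p ∣ q then 1 else 0) := by
      intro p hp
      have hpp := (mem_filter.1 hp).2
      have hp0 : (0 : ℝ) < p := by exact_mod_cast hpp.pos
      rcases hval p with h | h | ⟨h, hc⟩
      · have : g p / p ≤ (1 - 1 / N) * (1 / (p : ℝ)) + 1 / N * (ψ p / p) := by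
          rw [h]
          have := h1 p hpp
          rw [show (1 - 1 / (N : ℝ)) * (1 / (p : ℝ)) + 1 / N * (1 / p) = 1 / p by ring]
          gcongr
        split_ifs <;> linarith
      · have : g p / p ≤ (1 - 1 / N) * (1 / (p : ℝ)) + 1 / N * (ψ p / p) := by
          rw [h]
          have := h2 p hpp h
          rw [show (1 - 1 / (N : ℝ)) * (1 / (p : ℝ)) + 1 / N * (-1 / p) = (1 - 2 / N) / p by ring]
          gcongr
        split_ifs <;> linarith
      · have hd : p ∣ q := by
          by_contra hnd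
          exact hc ((Nat.Prime.coprime_iff_not_dvd hpp).2 hnd)
        rw [if_pos hd, h]
        have h3 := h1 p hpp
        have hp1 : (1 : ℝ) ≤ p := by exact_mod_cast hpp.pos
        have : g p / p ≤ 1 := by rw [div_le_one hp0]; linarith
        have : 0 ≤ (1 - 1 / N) * (1 / (p : ℝ)) := mul_nonneg (by linarith) (by positivity)
        simp only [zero_div, mul_zero]
        linarith
    refine (Finset.sum_le_sum e1).trans ?_
    rw [Finset.sum_add_distrib, Finset.sum_add_distrib, ← Finset.mul_sum, ← Finset.mul_sum]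
    have h3 := recip_le hx
    have h4 : ∑ p ∈ (Icc 1 ⌊x⌋₊).filter Nat.Prime, ψ p / (p : ℝ) ≤ C := by
      have h5 := hC ⌊x⌋₊
      have h6 : Vale.Agent.P014.H687.FM.rec (fun n => (ψ n : ℂ)) 0 ⌊x⌋₊ =
          ((∑ p ∈ (Icc 1 ⌊x⌋₊).filter Nat.Prime, ψ p / (p : ℝ) : ℝ) : ℂ) := by
        unfold Vale.Agent.P014.H687.FM.rec
        push_cast
        rfl
      rw [h6, Complex.norm_real, Real.norm_eq_abs] at h5
      exact (le_abs_self _).trans h5
    have h7 : ∑ p ∈ (Icc 1 ⌊x⌋₊).filter Nat.Prime, (if p ∣ q then (1 : ℝ) else 0) ≤ q := by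
      rw [← Finset.sum_filter, Finset.sum_const, nsmul_eq_mul, mul_one]
      have : (((Icc 1 ⌊x⌋₊).filter Nat.Prime).filter (fun p => p ∣ q)).card ≤ (Icc 1 q).card := by
        refine Finset.card_le_card fun p hp => ?_
        simp only [mem_filter, mem_Icc] at hp ⊢
        exact ⟨hp.1.1.1, Nat.le_of_dvd hq1 hp.2⟩
      rw [Nat.card_Icc, Nat.add_sub_cancel] at this
      exact_mod_cast this
    have h8 : (1 - 1 / (N : ℝ)) * ∑ p ∈ (Icc 1 ⌊x⌋₊).filter Nat.Prime, 1 / (p : ℝ) ≤
        (1 - 1 / N) * (Real.log (Real.log x) + 21) :=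
      mul_le_mul_of_nonneg_left h3 (by linarith)
    have h9 : 1 / (N : ℝ) * ∑ p ∈ (Icc 1 ⌊x⌋₊).filter Nat.Prime, ψ p / (p : ℝ) ≤ 1 / N * C :=
      mul_le_mul_of_nonneg_left h4 hNi0
    have h10 : 1 / (N : ℝ) * C = C / N := by ring
    linarith
  have h := fm2_gen h0 h1 zero_le_one hx hmain
  have e : (1 - 1 / (N : ℝ) - 1 : ℝ) = -((1 : ℝ) / N) := by ring
  rw [e] at h
  linarith

/-! ### Factorisations -/

variable {ι : Type*} [Fintype ι] [DecidableEq ι]

/-- all factorisations -/
noncomputable def tup (ι : Type*) [Fintype ι] [DecidableEq ι] (n : ℕ) : Finset (ι → ℕ) :=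
  (Fintype.piFinset fun _ => n.divisors).filter fun D => ∏ u, D u = n

theorem mem_tup {n : ℕ} (hn : n ≠ 0) {D : ι → ℕ} : D ∈ tup ι n ↔ ∏ u, D u = n := by
  rw [tup, mem_filter, Fintype.mem_piFinset]
  constructor
  · exact fun h => h.2
  · intro h
    refine ⟨fun u => ?_, h⟩
    rw [Nat.mem_divisors]
    exact ⟨h ▸ Finset.dvd_prod_of_mem D (mem_univ u), hn⟩

theorem tup_dvd {n : ℕ} {D : ι → ℕ} (h : D ∈ tup ι n) (u : ι) : D u ∣ n := by
  rw [tup, mem_filter, Fintype.mem_piFinset] at h
  exact (Nat.mem_divisors.1 (h.1 u)).1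

theorem tup_one {h : ι → ℕ → ℝ} (h1 : ∀ u, h u 1 = 1) :
    ∑ D ∈ tup ι 1, ∏ u, h u (D u) = 1 := by
  have : tup ι 1 = {fun _ => 1} := by
    ext D
    rw [mem_tup one_ne_zero, mem_singleton]
    constructor
    · intro hD
      funext u
      exact Nat.dvd_one.1 (hD ▸ Finset.dvd_prod_of_mem D (mem_univ u))
    · rintro rfl
      simp
  rw [this, sum_singleton]
  simp [h1]

theorem prod_update_ix (D : ι → ℕ) (v : ι) (b : ℕ) :
    ∏ u, Function.update D v b u = b * ∏ u ∈ univ \ {v}, D u :=
  Finset.prod_update_of_mem (mem_univ v) D b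

theorem prod_split_ix (D : ι → ℕ) (v : ι) : ∏ u, D u = D v * ∏ u ∈ univ \ {v}, D u := by
  have := prod_update_ix D v (D v)
  rwa [Function.update_eq_self] at this

theorem prod_split_ix' (F : ι → ℝ) (v : ι) : ∏ u, F u = F v * ∏ u ∈ univ \ {v}, F u := by
  rw [← Finset.prod_sdiff (Finset.subset_univ {v}), Finset.prod_singleton, mul_comm]

theorem tup_mul_prime {m p : ℕ} (hm : m ≠ 0) (hp : p.Prime) (hpm : ¬ p ∣ m)
    {h : ι → ℕ → ℝ} (h2 : ∀ u a, ¬ p ∣ a → h u (a * p) = h u a * h u p) :
    ∑ D ∈ tup ι (m * p), ∏ u, h u (D u) =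
      (∑ D ∈ tup ι m, ∏ u, h u (D u)) * ∑ u, h u p := by
  have hmp : m * p ≠ 0 := mul_ne_zero hm hp.ne_zero
  rw [Finset.sum_mul_sum, ← Finset.sum_product']
  symm
  refine Finset.sum_bij (fun x _ => Function.update x.1 x.2 (x.1 x.2 * p)) ?_ ?_ ?_ ?_
  · intro x hx
    have hD := (mem_tup hm).1 (mem_product.1 hx).1
    rw [mem_tup hmp, prod_update_ix, mul_assoc, mul_comm p, ← mul_assoc, ← prod_split_ix, hD]
  · intro x hx y hy heq
    obtain ⟨D, v⟩ := x
    obtain ⟨E, w⟩ := y
    have hvw : v = w := by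
      by_contra hne
      have h1 := congrFun heq v
      rw [Function.update_self, Function.update_of_ne hne] at h1
      have h1' : D v * p = E v := h1
      have h2 : p ∣ E v := h1' ▸ dvd_mul_left p _
      exact hpm (h2.trans (tup_dvd (mem_product.1 hy).1 v))
    subst hvw
    have hDE : D = E := by
      funext u
      by_cases hu : u = v
      · subst hu
        have h1 := congrFun heq u
        rw [Function.update_self, Function.update_self] at h1
        exact Nat.eq_of_mul_eq_mul_right hp.pos h1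
      · have h1 := congrFun heq u
        rwa [Function.update_of_ne hu, Function.update_of_ne hu] at h1
    rw [hDE]
  · intro D hD
    have hD' := (mem_tup hmp).1 hD
    obtain ⟨v, -, hv⟩ := (hp.prime.dvd_finsetProd_iff D).1 (hD' ▸ dvd_mul_left p m :
      p ∣ ∏ u, D u)
    obtain ⟨c, hc⟩ := hv
    refine ⟨(Function.update D v c, v), ?_, ?_⟩
    · rw [mem_product]
      refine ⟨?_, mem_univ _⟩
      rw [mem_tup hm, prod_update_ix]
      rw [prod_split_ix D v, hc] at hD'
      refine Nat.eq_of_mul_eq_mul_right hp.pos ?_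
      rw [← hD']
      ring
    · have e : c * p = D v := by rw [hc, mul_comm]
      show Function.update (Function.update D v c) v (Function.update D v c v * p) = D
      rw [Function.update_self, Function.update_idem, e, Function.update_eq_self]
  · intro x hx
    obtain ⟨D, v⟩ := x
    have hDm := (mem_product.1 hx).1
    show (∏ u, h u (D u)) * h v p = ∏ u, h u (Function.update D v (D v * p) u)
    rw [prod_split_ix' (fun u => h u (Function.update D v (D v * p) u)) v,
      prod_split_ix' (fun u => h u (D u)) v, Function.update_self]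
    have e2 : ∏ u ∈ univ \ {v}, h u (Function.update D v (D v * p) u) =
        ∏ u ∈ univ \ {v}, h u (D u) := by
      refine Finset.prod_congr rfl fun u hu => ?_
      rw [mem_sdiff, mem_singleton] at hu
      rw [Function.update_of_ne hu.2]
    rw [e2, h2 v (D v) (fun hd => hpm (hd.trans (tup_dvd hDm v)))]
    ring

/-- the sum over all factorisations is a product over the primes -/
theorem tup_sum {h : ι → ℕ → ℝ} (h1 : ∀ u, h u 1 = 1)
    (h2 : ∀ u a p, p.Prime → ¬ p ∣ a → h u (a * p) = h u a * h u p) :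
    ∀ n : ℕ, Squarefree n →
      ∑ D ∈ tup ι n, ∏ u, h u (D u) = ∏ p ∈ n.primeFactors, ∑ u, h u p := by
  intro n
  induction n using Nat.strong_induction_on with
  | _ n ih =>
    intro hn
    rcases Nat.lt_or_ge n 2 with hlt | hge
    · have : n = 1 := by
        have := hn.ne_zero
        omega
      rw [this, tup_one h1]
      simp
    · obtain ⟨p, hp, hpn⟩ := Nat.exists_prime_and_dvd (by omega : n ≠ 1)
      obtain ⟨m, rfl⟩ := hpn
      rw [mul_comm] at hn ⊢
      have hm : Squarefree m := hn.squarefree_of_dvd (dvd_mul_right m p)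
      have hcop : m.Coprime p := Nat.coprime_of_squarefree_mul hn
      have hpm : ¬ p ∣ m := (Nat.Prime.coprime_iff_not_dvd hp).1 hcop.symm
      have hlt : m < p * m := by
        have := hp.two_le
        have := Nat.pos_of_ne_zero hm.ne_zero
        nlinarith
      rw [tup_mul_prime hm.ne_zero hp hpm (fun u a => h2 u a p hp), ih m hlt hm,
        Nat.primeFactors_mul hm.ne_zero hp.ne_zero, hp.primeFactors, Finset.union_comm,
        ← Finset.insert_eq, Finset.prod_insert, mul_comm]
      intro hmem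
      exact hpm (Nat.dvd_of_mem_primeFactors hmem)

/-- the functions used: characters on `T`, the indicator of `1` outside -/
noncomputable def hT (T : Finset ι) (ψ : ι → ℕ → ℝ) (u : ι) (x : ℕ) : ℝ :=
  if u ∈ T then ψ u x else (if x = 1 then 1 else 0)

theorem hT_sum (T : Finset ι) (ψ : ι → ℕ → ℝ) (h1 : ∀ u, ψ u 1 = 1)
    (h2 : ∀ u a b, ψ u (a * b) = ψ u a * ψ u b) (n : ℕ) (hn : Squarefree n) :
    ∑ D ∈ tup ι n, ∏ u, hT T ψ u (D u) = ∏ p ∈ n.primeFactors, ∑ u ∈ T, ψ u p := by
  rw [tup_sum _ _ n hn]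
  · refine Finset.prod_congr rfl fun p hp => ?_
    have hp1 : p ≠ 1 := (Nat.prime_of_mem_primeFactors hp).one_lt.ne'
    unfold hT
    simp only [if_neg hp1]
    rw [Finset.sum_ite_mem, Finset.univ_inter]
  · intro u
    unfold hT
    rw [if_pos rfl]
    split_ifs
    · exact h1 u
    · rfl
  · intro u a p hp ha
    have hp1 : p ≠ 1 := hp.one_lt.ne'
    have hap : a * p ≠ 1 := fun h => hp1 (Nat.eq_one_of_mul_eq_one_left h)
    unfold hT
    rw [if_neg hap, if_neg hp1]
    split_ifs
    · exact h2 u a p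
    · ring
    · ring

/-- factorisations with one more trivial coordinate -/
theorem tup_diff (T : Finset ι) (ψ : ι → ℕ → ℝ) (hb : ∀ u x, |ψ u x| ≤ 1) (n : ℕ)
    (hn : Squarefree n) :
    |∑ D ∈ tup ι n, ∏ u, hT T ψ u (D u) - ∑ D ∈ tupS T n, ∏ u, hT T ψ u (D u)| ≤
      T.card * ((T.card - 1 : ℕ) : ℝ) ^ n.primeFactors.card := by
  classical
  have hsub : tupS T n = (tup ι n).filter (fun D => isS T D) := by
    ext D
    unfold tupS tup isS
    simp only [Finset.mem_filter]
    tauto
  rw [hsub, Finset.sum_filter, ← Finset.sum_sub_distrib]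
  refine (Finset.abs_sum_le_sum_abs _ _).trans ?_
  have hle : ∀ D ∈ tup ι n, |∏ u, hT T ψ u (D u) - if isS T D then ∏ u, hT T ψ u (D u) else 0| ≤
      ∑ v ∈ T, ∏ u, hT (T.erase v) (fun _ _ => 1) u (D u) := by
    intro D _
    have hnn : ∀ v u, 0 ≤ hT (T.erase v) (fun _ _ => (1 : ℝ)) u (D u) := by
      intro v u
      unfold hT
      split_ifs <;> norm_num
    by_cases hS : isS T D
    · rw [if_pos hS, sub_self, abs_zero]
      exact Finset.sum_nonneg fun v _ => Finset.prod_nonneg fun u _ => hnn v u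
    · rw [if_neg hS, sub_zero]
      by_cases hz : ∃ u, u ∉ T ∧ D u ≠ 1
      · obtain ⟨u, hu, hu1⟩ := hz
        have : ∏ u, hT T ψ u (D u) = 0 := by
          refine Finset.prod_eq_zero (mem_univ u) ?_
          unfold hT
          rw [if_neg hu, if_neg hu1]
        rw [this, abs_zero]
        exact Finset.sum_nonneg fun v _ => Finset.prod_nonneg fun u _ => hnn v u
      · push Not at hz
        have hv : ∃ v ∈ T, D v = 1 := by
          by_contra hc
          push Not at hc
          apply hS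
          intro u
          constructor
          · intro h1
            by_contra h2
            exact h1 (hz u h2)
          · exact fun h => hc u h
        obtain ⟨v, hv, hv1⟩ := hv
        have h1 : ∏ u, hT (T.erase v) (fun _ _ => (1 : ℝ)) u (D u) = 1 := by
          refine Finset.prod_eq_one fun u _ => ?_
          unfold hT
          by_cases hu : u ∈ T.erase v
          · rw [if_pos hu]
          · rw [if_neg hu, if_pos]
            rw [Finset.mem_erase] at hu
            by_cases huv : u = v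
            · rw [huv]; exact hv1
            · exact hz u (fun h => hu ⟨huv, h⟩)
        have h2 : |∏ u, hT T ψ u (D u)| ≤ 1 := by
          rw [Finset.abs_prod]
          refine Finset.prod_le_one (fun _ _ => abs_nonneg _) fun u _ => ?_
          unfold hT
          split_ifs
          · exact hb _ _
          · simp
          · simp
        refine h2.trans (h1.symm.le.trans ?_)
        exact Finset.single_le_sum
          (f := fun v => ∏ u, hT (T.erase v) (fun _ _ => (1 : ℝ)) u (D u))
          (fun v _ => Finset.prod_nonneg fun u _ => hnn v u) hv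
  refine (Finset.sum_le_sum hle).trans ?_
  rw [Finset.sum_comm]
  refine le_of_eq ?_
  have h3 : ∀ v ∈ T, ∑ D ∈ tup ι n, ∏ u, hT (T.erase v) (fun _ _ => (1 : ℝ)) u (D u) =
      ((T.card - 1 : ℕ) : ℝ) ^ n.primeFactors.card := by
    intro v hv
    rw [hT_sum (T.erase v) _ (fun _ => rfl) (fun _ _ _ => by ring) n hn]
    simp only [Finset.sum_const, Finset.card_erase_of_mem hv, nsmul_eq_mul, mul_one,
      Finset.prod_const]
  rw [Finset.sum_congr rfl h3, Finset.sum_const, nsmul_eq_mul]

end Vale.Agent.P017.H509
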